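import Crest.Agent.N325.Ip.Bar

/-!
# Row 325 (helper74): toolbox for the changes of the potential
-/

set_option autoImplicit false
open Finset

namespace Crest.Agent.N325.Ip

open Crest.Agent.N325.Tw Crest.Agent.N325.Ipm

variable {P : Pm} {B : Bn} {e : ℕ} {A : Arc} {x x' : ℤ} {N : Net}

/-! ## networks -/

theorem pot_emp : pot P B Net.emp = 0 := by simp [pot, Net.emp]

theorem pot_ins (h : e ∉ N.E) (A : Arc) (x : ℤ) :
    pot P B (N.ins e A x) = pot P B N + bar P B A x := by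
  simp only [pot, Net.ins, sum_insert h, Function.update_self]
  rw [add_comm]
  congr 1
  refine sum_congr rfl fun e' he => ?_
  have : e' ≠ e := fun k => h (k ▸ he)
  rw [Function.update_of_ne this, Function.update_of_ne this]

theorem pot_del (h : e ∈ N.E) : pot P B (N.del e) = pot P B N - bar P B (N.arc e) (N.X e) := by
  simp only [pot, Net.del]
  rw [← add_sum_erase _ _ h]; ring

/-- replace the arc `e` -/
def Net.set (N : Net) (e : ℕ) (A : Arc) (x : ℤ) : Net := (N.del e).ins e A x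

theorem Net.set_E (h : e ∈ N.E) (A : Arc) (x : ℤ) : (N.set e A x).E = N.E := insert_erase h
theorem Net.set_arc (N : Net) (e : ℕ) (A : Arc) (x : ℤ) :
    (N.set e A x).arc = Function.update N.arc e A := rfl
theorem Net.set_X (N : Net) (e : ℕ) (A : Arc) (x : ℤ) :
    (N.set e A x).X = Function.update N.X e x := rfl

theorem pot_set (h : e ∈ N.E) (A : Arc) (x : ℤ) :
    pot P B (N.set e A x) = pot P B N - bar P B (N.arc e) (N.X e) + bar P B A x := by
  rw [Net.set, pot_ins (by simp [Net.del]), pot_del h]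

/-! ## the logarithmic regime -/

/-- all slacks are above the truncation point -/
def Big (P : Pm) (A : Arc) (x : ℤ) : Prop := (P.s0 : ℤ) ≤ x + A.o1 ∧ (P.s0 : ℤ) ≤ A.o3 - x

theorem Big.pos (hs0 : 1 ≤ P.s0) (h : Big P A x) : 0 < x + A.o1 ∧ 0 < A.o3 - x := by
  unfold Big at h; omega

theorem Big.dom {th ψ er κ : ℕ} (k : Num P B th ψ er κ) (h : Big P A x) : Dom B A x := by
  have : B.sm ≤ P.s0 := le_trans (Nat.le_mul_of_pos_right _ (Nat.succ_pos _)) k.sm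
  unfold Big at h; unfold Dom; omega

theorem Dom.pos (hs : 1 ≤ B.sm) (h : Dom B A x) : 0 < x + A.o1 ∧ 0 < A.o3 - x := by
  unfold Dom at h; omega

theorem phi_lM_eq (hD : 1 ≤ P.D) (hs0 : 1 ≤ P.s0) (hM : 1 ≤ B.Mu) {y : ℝ} (h : (P.s0 : ℝ) ≤ y) :
    phi (σ0 P) (y / P.D) + lM P B = Real.log B.Mu - Real.log y := by
  have hD' : (0 : ℝ) < P.D := by exact_mod_cast hD
  have s0 : (0 : ℝ) < P.s0 := by exact_mod_cast hs0
  have M0 : (0 : ℝ) < B.Mu := by exact_mod_cast hM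
  rw [σ0, phi_of_le (div_le_div_of_nonneg_right h hD'.le), lM, Real.log_div (s0.trans_le h).ne' hD'.ne',
    Real.log_div M0.ne' hD'.ne']
  ring

theorem le_phi_lM (hD : 1 ≤ P.D) (hs0 : 1 ≤ P.s0) (hM : 1 ≤ B.Mu) {y : ℝ} (h : 0 < y) :
    Real.log B.Mu - Real.log y ≤ phi (σ0 P) (y / P.D) + lM P B := by
  have hD' : (0 : ℝ) < P.D := by exact_mod_cast hD
  have M0 : (0 : ℝ) < B.Mu := by exact_mod_cast hM
  have := neg_log_le_phi (σ0_pos hD hs0) (div_pos h hD')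
  rw [Real.log_div h.ne' hD'.ne'] at this
  rw [lM, Real.log_div M0.ne' hD'.ne']
  linarith

theorem wt_eq (hD : 1 ≤ P.D) {y : ℝ} (h : (P.s0 : ℝ) ≤ y) : wt (σ0 P) (y / P.D) = P.D / y := by
  have hD' : (0 : ℝ) < P.D := by exact_mod_cast hD
  rw [σ0, wt_of_le (div_le_div_of_nonneg_right h hD'.le), one_div_div]

theorem le_wt (hD : 1 ≤ P.D) {y : ℝ} (h : 0 < y) : P.D / y ≤ wt (σ0 P) (y / P.D) := by
  have hD' : (0 : ℝ) < P.D := by exact_mod_cast hD
  rw [← one_div_div]; exact one_div_le_wt (div_pos h hD')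

/-- the logarithmic form of the barrier -/
noncomputable def barL (P : Pm) (B : Bn) (A : Arc) (x : ℤ) : ℝ :=
  A.p * (((x : ℝ) + A.o1) / P.D) + A.c1 * (Real.log B.Mu - Real.log ((x : ℝ) + A.o1)) +
    A.c2 * (Real.log B.Mu - Real.log ((x : ℝ) + A.o2)) +
    A.c3 * (Real.log B.Mu - Real.log ((A.o3 : ℝ) - x))

theorem Big.cast (hA : B.arc e A) (h : Big P A x) : (P.s0 : ℝ) ≤ (x : ℝ) + A.o1 ∧
    (P.s0 : ℝ) ≤ (x : ℝ) + A.o2 ∧ (P.s0 : ℝ) ≤ (A.o3 : ℝ) - x := by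
  have b1 : (A.o1 : ℝ) ≤ A.o2 := by exact_mod_cast hA.2.2.2.2.2.2.2.1
  have a1 : (P.s0 : ℝ) ≤ (x : ℝ) + A.o1 := by exact_mod_cast h.1
  exact ⟨a1, by linarith, by exact_mod_cast h.2⟩

theorem Mu_pos (hA : B.arc e A) (h1 : 0 < x + A.o1) (h3 : 0 < A.o3 - x) : 1 ≤ B.Mu := by
  obtain ⟨-, -, -, -, -, -, -, o12, oM⟩ := hA; omega

theorem Big.bar_eq (hD : 1 ≤ P.D) (hs0 : 1 ≤ P.s0) (hA : B.arc e A) (h : Big P A x) :
    bar P B A x = barL P B A x := by
  obtain ⟨a1, a2, a3⟩ := h.cast hA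
  have hM := Mu_pos hA (h.pos hs0).1 (h.pos hs0).2
  simp only [bar, barL, s1, s2, s3, phi_lM_eq hD hs0 hM a1, phi_lM_eq hD hs0 hM a2,
    phi_lM_eq hD hs0 hM a3]

theorem barL_le_bar (hD : 1 ≤ P.D) (hs0 : 1 ≤ P.s0) (hA : B.arc e A) (h1 : 0 < x + A.o1)
    (h3 : 0 < A.o3 - x) : barL P B A x ≤ bar P B A x := by
  have hM := Mu_pos hA h1 h3
  have a1 : (0 : ℝ) < (x : ℝ) + A.o1 := by exact_mod_cast h1
  have a3 : (0 : ℝ) < (A.o3 : ℝ) - x := by exact_mod_cast h3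
  have b1 : (A.o1 : ℝ) ≤ A.o2 := by exact_mod_cast hA.2.2.2.2.2.2.2.1
  have u1 := mul_le_mul_of_nonneg_left (le_phi_lM hD hs0 hM a1) (Nat.cast_nonneg (α := ℝ) A.c1)
  have u2 := mul_le_mul_of_nonneg_left (le_phi_lM hD hs0 hM (y := (x : ℝ) + A.o2) (by linarith))
    (Nat.cast_nonneg (α := ℝ) A.c2)
  have u3 := mul_le_mul_of_nonneg_left (le_phi_lM hD hs0 hM a3) (Nat.cast_nonneg (α := ℝ) A.c3)
  unfold bar barL s1 s2 s3; linarith

theorem Big.gr_eq (hD : 1 ≤ P.D) (hA : B.arc e A) (h : Big P A x) :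
    gr P A x = A.p - A.c1 * (P.D / ((x : ℝ) + A.o1)) - A.c2 * (P.D / ((x : ℝ) + A.o2)) +
      A.c3 * (P.D / ((A.o3 : ℝ) - x)) := by
  obtain ⟨a1, a2, a3⟩ := h.cast hA
  simp only [gr, s1, s2, s3, wt_eq hD a1, wt_eq hD a2, wt_eq hD a3]

theorem Big.ln_eq (hD : 1 ≤ P.D) (hA : B.arc e A) (h : Big P A x) :
    ln P A x = A.c1 * (P.D / ((x : ℝ) + A.o1)) + A.c2 * (P.D / ((x : ℝ) + A.o2)) +
      A.c3 * (P.D / ((A.o3 : ℝ) - x)) := by
  obtain ⟨a1, a2, a3⟩ := h.cast hA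
  simp only [ln, s1, s2, s3, wt_eq hD a1, wt_eq hD a2, wt_eq hD a3]

theorem log_sub_le {a b t : ℝ} (ha : 0 < a) (hb : 0 < b) (h : a ≤ (1 + t) * b) :
    Real.log a - Real.log b ≤ t := by
  rw [← Real.log_div ha.ne' hb.ne']
  have := Real.log_le_sub_one_of_pos (div_pos ha hb)
  have : a / b ≤ 1 + t := (div_le_iff₀ hb).2 h
  linarith

/-- moving the flow from `x` to `x'`: the lower slacks shrink at most by `1 + t`, the upper slack
at most by `1 + u` -/
theorem bar_move (hD : 1 ≤ P.D) (hs0 : 1 ≤ P.s0) (hA : B.arc e A) (h1 : 0 < x + A.o1)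
    (h3 : 0 < A.o3 - x) (h' : Big P A x') {t u : ℝ} (ht : 0 ≤ t)
    (k1 : (x : ℝ) + A.o1 ≤ (1 + t) * ((x' : ℝ) + A.o1))
    (k3 : (A.o3 : ℝ) - x ≤ (1 + u) * ((A.o3 : ℝ) - x')) :
    bar P B A x' ≤ bar P B A x + A.p * (((x' : ℝ) - x) / P.D) + (A.c1 + A.c2) * t + A.c3 * u := by
  have s0 : (0 : ℝ) < P.s0 := by exact_mod_cast hs0
  obtain ⟨a1, a2, a3⟩ := h'.cast hA
  have c1 : (0 : ℝ) < (x : ℝ) + A.o1 := by exact_mod_cast h1
  have c3 : (0 : ℝ) < (A.o3 : ℝ) - x := by exact_mod_cast h3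
  have b1 : (A.o1 : ℝ) ≤ A.o2 := by exact_mod_cast hA.2.2.2.2.2.2.2.1
  have l1 := log_sub_le c1 (s0.trans_le a1) k1
  have l2 := log_sub_le (a := (x : ℝ) + A.o2) (t := t) (by linarith) (s0.trans_le a2) (by nlinarith)
  have l3 := log_sub_le c3 (s0.trans_le a3) k3
  have u1 := mul_le_mul_of_nonneg_left l1 (Nat.cast_nonneg (α := ℝ) A.c1)
  have u2 := mul_le_mul_of_nonneg_left l2 (Nat.cast_nonneg (α := ℝ) A.c2)
  have u3 := mul_le_mul_of_nonneg_left l3 (Nat.cast_nonneg (α := ℝ) A.c3)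
  have := barL_le_bar hD hs0 hA h1 h3
  rw [h'.bar_eq hD hs0 hA]
  have e : (A.p : ℝ) * (((x' : ℝ) + A.o1) / P.D) =
      A.p * (((x : ℝ) + A.o1) / P.D) + A.p * (((x' : ℝ) - x) / P.D) := by ring
  unfold barL at *; linarith

/-- the log-sum inequality -/
theorem log_sum {ι : Type*} (s : Finset ι) (c y : ι → ℝ) (hc : ∀ i ∈ s, 0 < c i)
    (hy : ∀ i ∈ s, 0 < y i) (hs : s.Nonempty) :
    (∑ i ∈ s, c i) * (Real.log (∑ i ∈ s, c i) - Real.log (∑ i ∈ s, y i)) ≤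
      ∑ i ∈ s, c i * (Real.log (c i) - Real.log (y i)) := by
  have C := sum_pos hc hs; have Y := sum_pos hy hs
  set a := ∑ i ∈ s, c i with ha
  set b := ∑ i ∈ s, y i with hb
  have : ∀ i ∈ s, c i * (Real.log a - Real.log b) + (c i - y i * (a / b)) ≤
      c i * (Real.log (c i) - Real.log (y i)) := fun i hi => by
    have p := hc i hi; have q := hy i hi
    have l := Real.log_le_sub_one_of_pos (show 0 < y i * a / (c i * b) by positivity)
    rw [Real.log_div (by positivity) (by positivity), Real.log_mul q.ne' C.ne',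
      Real.log_mul p.ne' Y.ne'] at l
    have m := mul_le_mul_of_nonneg_left l p.le
    have e : c i * (y i * a / (c i * b) - 1) = y i * (a / b) - c i := by field_simp
    rw [e] at m; linarith
  have t := sum_le_sum this
  rw [sum_add_distrib, ← sum_mul, sum_sub_distrib, ← sum_mul, ← ha, ← hb,
    mul_div_cancel₀ _ Y.ne', sub_self, add_zero] at t
  exact t

theorem log_sum_two {c d y z : ℝ} (hc : 0 < c) (hd : 0 < d) (hy : 0 < y) (hz : 0 < z) :
    (c + d) * (Real.log (c + d) - Real.log (y + z)) ≤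
      c * (Real.log c - Real.log y) + d * (Real.log d - Real.log z) := by
  have := log_sum (univ : Finset Bool) (fun b => if b then c else d) (fun b => if b then y else z)
    (fun b _ => by cases b <;> simpa) (fun b _ => by cases b <;> simpa) univ_nonempty
  simpa using this

end Crest.Agent.N325.Ip
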