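import Crest.Agent.N325.Ip.Defs

/-!
# Row 325 (helper74): the barrier of one arc (real analysis)
-/

set_option autoImplicit false
open Finset

namespace Crest.Agent.N325.Ip

open Crest.Agent.N325.Tw Crest.Agent.N325.Ipm

variable {P : Pm} {B : Bn} {th ψ er κ e : ℕ} {A : Arc} {x r c : ℤ}

theorem σ0_pos (hD : 1 ≤ P.D) (hs0 : 1 ≤ P.s0) : 0 < σ0 P := by
  have : (0 : ℝ) < P.D := by exact_mod_cast hD
  have : (0 : ℝ) < P.s0 := by exact_mod_cast hs0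
  unfold σ0; positivity

theorem σ0_nonneg (P : Pm) : 0 ≤ σ0 P := by unfold σ0; positivity

/-- the three slacks are positive and at most `Mu / D` -/
theorem slacks (hD : 1 ≤ P.D) (hA : B.arc e A) (h1 : 0 < x + A.o1) (h3 : 0 < A.o3 - x) :
    (0 < s1 P A x ∧ s1 P A x ≤ (B.Mu : ℝ) / P.D) ∧ (0 < s2 P A x ∧ s2 P A x ≤ (B.Mu : ℝ) / P.D) ∧
      (0 < s3 P A x ∧ s3 P A x ≤ (B.Mu : ℝ) / P.D) := by
  have hD' : (0 : ℝ) < P.D := by exact_mod_cast hD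
  obtain ⟨-, -, -, -, -, -, -, o12, oM⟩ := hA
  have a1 : (0 : ℝ) < (x : ℝ) + A.o1 := by exact_mod_cast h1
  have a3 : (0 : ℝ) < (A.o3 : ℝ) - x := by exact_mod_cast h3
  have b1 : (A.o1 : ℝ) ≤ A.o2 := by exact_mod_cast o12
  have b2 : (A.o2 : ℝ) + A.o3 ≤ B.Mu := by exact_mod_cast oM
  refine ⟨⟨div_pos a1 hD', ?_⟩, ⟨div_pos (by linarith) hD', ?_⟩, div_pos a3 hD', ?_⟩ <;>
    exact div_le_div_of_nonneg_right (by linarith) hD'.le

theorem phi_lM_nonneg (hD : 1 ≤ P.D) (hs0 : 1 ≤ P.s0) {s : ℝ} (h : 0 < s ∧ s ≤ (B.Mu : ℝ) / P.D) :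
    0 ≤ phi (σ0 P) s + lM P B := by
  have := neg_log_le_phi (σ0_pos hD hs0) h.1
  have := Real.log_le_log h.1 h.2
  unfold lM; linarith

theorem bar_nonneg (hD : 1 ≤ P.D) (hs0 : 1 ≤ P.s0) (hA : B.arc e A) (h1 : 0 < x + A.o1)
    (h3 : 0 < A.o3 - x) : 0 ≤ bar P B A x := by
  obtain ⟨k1, k2, k3⟩ := slacks hD hA h1 h3
  have := phi_lM_nonneg hD hs0 k1; have := phi_lM_nonneg hD hs0 k2
  have := phi_lM_nonneg hD hs0 k3; have := k1.1
  unfold bar; positivity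

theorem Num.s0_pos (h : Num P B th ψ er κ) : 1 ≤ P.s0 :=
  le_trans (Nat.mul_pos h.sm1 (Nat.succ_pos _)) h.sm

theorem sm_le_of_phi (h : Num P B th ψ er κ) {y : ℤ} (hy : 0 < y)
    (hF : phi (σ0 P) ((y : ℝ) / P.D) + lM P B ≤ B.F) : (B.sm : ℤ) ≤ y := by
  have hD' : (0 : ℝ) < P.D := by exact_mod_cast h.D
  have hy' : (0 : ℝ) < y := by exact_mod_cast hy
  have s0 : (0 : ℝ) < P.s0 := by exact_mod_cast h.s0_pos
  have sm : (B.sm : ℝ) * (B.F + 1) ≤ P.s0 := by exact_mod_cast h.sm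
  have F0 : (0 : ℝ) ≤ B.F := Nat.cast_nonneg _
  have m0 : (0 : ℝ) ≤ B.sm := Nat.cast_nonneg _
  have : (B.sm : ℝ) ≤ y := by
    by_cases k : σ0 P ≤ (y : ℝ) / P.D
    · unfold σ0 at k; rw [div_le_div_iff_of_pos_right hD'] at k; nlinarith
    · rw [phi_of_lt (not_le.1 k)] at hF
      have l : Real.log (σ0 P) ≤ lM P B := Real.log_le_log (σ0_pos h.D h.s0_pos)
        (div_le_div_of_nonneg_right (by exact_mod_cast h.s0) hD'.le)
      have e : σ0 P / ((y : ℝ) / P.D) = P.s0 / y := by unfold σ0; field_simp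
      rw [e] at hF
      have : (P.s0 : ℝ) / y ≤ B.F + 1 := by linarith
      rw [div_le_iff₀ hy'] at this
      nlinarith
  exact_mod_cast this

theorem dom_of_bar_le (h : Num P B th ψ er κ) (hA : B.arc e A) (h1 : 0 < x + A.o1)
    (h3 : 0 < A.o3 - x) (hF : bar P B A x ≤ B.F) : Dom B A x := by
  obtain ⟨k1, k2, k3⟩ := slacks h.D hA h1 h3
  have n1 := phi_lM_nonneg h.D h.s0_pos k1; have n2 := phi_lM_nonneg h.D h.s0_pos k2
  have n3 := phi_lM_nonneg h.D h.s0_pos k3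
  have c1 : (1 : ℝ) ≤ A.c1 := by exact_mod_cast hA.2.2.2.2.1
  have c3 : (1 : ℝ) ≤ A.c3 := by exact_mod_cast hA.2.2.2.2.2.1
  have p0 := mul_nonneg (Nat.cast_nonneg (α := ℝ) A.p) k1.1.le
  have p2 := mul_nonneg (Nat.cast_nonneg (α := ℝ) A.c2) n2
  unfold bar at hF
  refine ⟨sm_le_of_phi h h1 ?_, sm_le_of_phi h h3 ?_⟩
  · push_cast; change phi (σ0 P) (s1 P A x) + lM P B ≤ _; nlinarith
  · push_cast; change phi (σ0 P) (s3 P A x) + lM P B ≤ _; nlinarith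

theorem wt_le_ln (hD : 1 ≤ P.D) (hA : B.arc e A) (h1 : 0 < x + A.o1) (h3 : 0 < A.o3 - x) :
    wt (σ0 P) (s1 P A x) ≤ ln P A x ∧ wt (σ0 P) (s2 P A x) ≤ ln P A x ∧
      wt (σ0 P) (s3 P A x) ≤ ln P A x := by
  obtain ⟨k1, k2, k3⟩ := slacks hD hA h1 h3
  have hD' : (0 : ℝ) < P.D := by exact_mod_cast hD
  have w1 := wt_pos (s0 := σ0 P) k1.1; have w2 := wt_pos (s0 := σ0 P) k2.1
  have w3 := wt_pos (s0 := σ0 P) k3.1
  have c1 : (1 : ℝ) ≤ A.c1 := by exact_mod_cast hA.2.2.2.2.1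
  have c3 : (1 : ℝ) ≤ A.c3 := by exact_mod_cast hA.2.2.2.2.2.1
  have p2 := mul_nonneg (Nat.cast_nonneg (α := ℝ) A.c2) w2.le
  have o12 : (A.o1 : ℝ) ≤ A.o2 := by exact_mod_cast hA.2.2.2.2.2.2.2.1
  have a : wt (σ0 P) (s2 P A x) ≤ wt (σ0 P) (s1 P A x) :=
    wt_anti (σ0_nonneg P) k1.1 (div_le_div_of_nonneg_right (by linarith) hD'.le)
  have b1 : wt (σ0 P) (s1 P A x) ≤ ln P A x := by unfold ln; nlinarith
  exact ⟨b1, a.trans b1, by unfold ln; nlinarith⟩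

theorem ln_pos (hD : 1 ≤ P.D) (hA : B.arc e A) (h1 : 0 < x + A.o1) (h3 : 0 < A.o3 - x) :
    (P.D : ℝ) / B.Mu ≤ ln P A x ∧ 0 < ln P A x := by
  obtain ⟨k1, -, -⟩ := slacks hD hA h1 h3
  have b := (wt_le_ln hD hA h1 h3).1
  refine ⟨le_trans ?_ b, (wt_pos k1.1).trans_le b⟩
  refine le_trans ?_ (one_div_le_wt k1.1)
  rw [← one_div_div]
  exact one_div_le_one_div_of_le k1.1 k1.2

theorem s1_add (P : Pm) (A : Arc) (x c : ℤ) : s1 P A (x + c) = s1 P A x + c / P.D := by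
  unfold s1; push_cast; ring
theorem s2_add (P : Pm) (A : Arc) (x c : ℤ) : s2 P A (x + c) = s2 P A x + c / P.D := by
  unfold s2; push_cast; ring
theorem s3_add (P : Pm) (A : Arc) (x c : ℤ) : s3 P A (x + c) = s3 P A x + -(c / P.D) := by
  unfold s3; push_cast; ring

theorem nat_sq_le (n : ℕ) (w : ℝ) : n * w ^ 2 ≤ (n * w) ^ 2 := by
  rw [mul_pow]
  refine mul_le_mul_of_nonneg_right ?_ (sq_nonneg _)
  exact_mod_cast Nat.le_self_pow two_ne_zero n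

theorem bar_step (hD : 1 ≤ P.D) (hs0 : 1 ≤ P.s0) (hA : B.arc e A) (h1 : 0 < x + A.o1)
    (h3 : 0 < A.o3 - x) (hc : |(c : ℝ)| / P.D * ln P A x ≤ 1 / 4) :
    0 < x + c + A.o1 ∧ 0 < A.o3 - (x + c) ∧ bar P B A (x + c) ≤
      bar P B A x + gr P A x * (c / P.D) + 4 * (|(c : ℝ)| / P.D * ln P A x) ^ 2 := by
  obtain ⟨k1, k2, k3⟩ := slacks hD hA h1 h3
  obtain ⟨w1, w2, w3⟩ := wt_le_ln hD hA h1 h3
  have hD' : (0 : ℝ) < P.D := by exact_mod_cast hD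
  have ea : |(c : ℝ)| / P.D = |(c : ℝ) / P.D| := by rw [abs_div, abs_of_pos hD']
  rw [ea] at hc ⊢
  set d : ℝ := (c : ℝ) / P.D with hd
  have d0 := abs_nonneg d
  have d1 := (mul_le_mul_of_nonneg_left w1 d0).trans hc
  have d2 := (mul_le_mul_of_nonneg_left w2 d0).trans hc
  have d3 : |-d| * wt (σ0 P) (s3 P A x) ≤ 1 / 4 := by
    rw [abs_neg]; exact (mul_le_mul_of_nonneg_left w3 d0).trans hc
  have p1 := add_pos_of_wt k1.1 d1; have p3 := add_pos_of_wt k3.1 d3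
  have t1 := phi_taylor (σ0_pos hD hs0) k1.1 d1; have t2 := phi_taylor (σ0_pos hD hs0) k2.1 d2
  have t3 := phi_taylor (σ0_pos hD hs0) k3.1 d3
  refine ⟨?_, ?_, ?_⟩
  · rw [hd, ← s1_add] at p1
    have := (div_pos_iff_of_pos_right hD').1 p1
    exact_mod_cast this
  · rw [hd, ← s3_add] at p3
    have := (div_pos_iff_of_pos_right hD').1 p3
    exact_mod_cast this
  · have u1 := mul_le_mul_of_nonneg_left t1 (Nat.cast_nonneg (α := ℝ) A.c1)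
    have u2 := mul_le_mul_of_nonneg_left t2 (Nat.cast_nonneg (α := ℝ) A.c2)
    have u3 := mul_le_mul_of_nonneg_left t3 (Nat.cast_nonneg (α := ℝ) A.c3)
    have q1 := nat_sq_le A.c1 (wt (σ0 P) (s1 P A x)); have q2 := nat_sq_le A.c2 (wt (σ0 P) (s2 P A x))
    have q3 := nat_sq_le A.c3 (wt (σ0 P) (s3 P A x))
    have m1 := mul_nonneg (Nat.cast_nonneg (α := ℝ) A.c1) (wt_pos (s0 := σ0 P) k1.1).le
    have m2 := mul_nonneg (Nat.cast_nonneg (α := ℝ) A.c2) (wt_pos (s0 := σ0 P) k2.1).le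
    have m3 := mul_nonneg (Nat.cast_nonneg (α := ℝ) A.c3) (wt_pos (s0 := σ0 P) k3.1).le
    have q : A.c1 * wt (σ0 P) (s1 P A x) ^ 2 + A.c2 * wt (σ0 P) (s2 P A x) ^ 2 +
        A.c3 * wt (σ0 P) (s3 P A x) ^ 2 ≤ ln P A x ^ 2 := by
      unfold ln; nlinarith [mul_nonneg m1 m2, mul_nonneg m1 m3, mul_nonneg m2 m3]
    have q' := mul_le_mul_of_nonneg_left q (sq_nonneg d)
    rw [mul_pow |d|, sq_abs]
    simp only [bar, gr, s1_add, s2_add, s3_add, ← hd]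
    linarith

theorem Near.stab {ε : ℝ} (hD : 1 ≤ P.D) (hA : B.arc e A) (h1 : 0 < r + A.o1) (h3 : 0 < A.o3 - r)
    (h : Near P A ε x r) (hε : ε ≤ 1 / 4) :
    |gr P A x - gr P A r| ≤ 4 * ε * ln P A r ∧ |ln P A x - ln P A r| ≤ 4 * ε * ln P A r := by
  obtain ⟨k1, k2, k3⟩ := slacks hD hA h1 h3
  obtain ⟨w1, w2, w3⟩ := wt_le_ln hD hA h1 h3
  have hD' : (0 : ℝ) < P.D := by exact_mod_cast hD
  obtain ⟨c, rfl⟩ : ∃ c, x = r + c := ⟨x - r, by ring⟩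
  have hc : |(c : ℝ) / P.D| * ln P A r ≤ ε := by
    rw [abs_div, abs_of_pos hD']; simpa [Near] using h
  have d0 := abs_nonneg ((c : ℝ) / P.D)
  have t1 := abs_le.1 (wt_stable (σ0_nonneg P) k1.1 ((mul_le_mul_of_nonneg_left w1 d0).trans hc) hε)
  have t2 := abs_le.1 (wt_stable (σ0_nonneg P) k2.1 ((mul_le_mul_of_nonneg_left w2 d0).trans hc) hε)
  have t3 := abs_le.1 (wt_stable (D := -((c : ℝ) / P.D)) (σ0_nonneg P) k3.1
    (by rw [abs_neg]; exact (mul_le_mul_of_nonneg_left w3 d0).trans hc) hε)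
  have a1 := Nat.cast_nonneg (α := ℝ) A.c1; have a2 := Nat.cast_nonneg (α := ℝ) A.c2
  have a3 := Nat.cast_nonneg (α := ℝ) A.c3
  have u1 := mul_le_mul_of_nonneg_left t1.1 a1; have v1 := mul_le_mul_of_nonneg_left t1.2 a1
  have u2 := mul_le_mul_of_nonneg_left t2.1 a2; have v2 := mul_le_mul_of_nonneg_left t2.2 a2
  have u3 := mul_le_mul_of_nonneg_left t3.1 a3; have v3 := mul_le_mul_of_nonneg_left t3.2 a3
  simp only [gr, ln, s1_add, s2_add, s3_add, abs_le]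
  refine ⟨⟨?_, ?_⟩, ?_, ?_⟩ <;> nlinarith

theorem Near.slack {ε : ℝ} (hD : 1 ≤ P.D) (hA : B.arc e A) (h1 : 0 < r + A.o1)
    (h3 : 0 < A.o3 - r) (h : Near P A ε x r) :
    |(x : ℝ) - r| ≤ ε * ((r : ℝ) + A.o1) ∧ |(x : ℝ) - r| ≤ ε * ((A.o3 : ℝ) - r) := by
  obtain ⟨k1, -, k3⟩ := slacks hD hA h1 h3
  obtain ⟨w1, -, w3⟩ := wt_le_ln hD hA h1 h3
  have hD' : (0 : ℝ) < P.D := by exact_mod_cast hD
  have hc : |((x : ℝ) - r) / P.D| * ln P A r ≤ ε := by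
    rw [abs_div, abs_of_pos hD']; exact h
  have d0 := abs_nonneg (((x : ℝ) - r) / P.D)
  have t1 := abs_le_of_wt k1.1 ((mul_le_mul_of_nonneg_left w1 d0).trans hc)
  have t3 := abs_le_of_wt k3.1 ((mul_le_mul_of_nonneg_left w3 d0).trans hc)
  rw [abs_div, abs_of_pos hD'] at t1 t3
  unfold s1 at t1; unfold s3 at t3
  rw [← mul_div_assoc, div_le_div_iff_of_pos_right hD'] at t1 t3
  exact ⟨t1, t3⟩

theorem phi_lM_le (hD : 1 ≤ P.D) (hs0 : 1 ≤ P.s0) (hM : 1 ≤ B.Mu) {s : ℝ} (h : σ0 P ≤ s) :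
    phi (σ0 P) s + lM P B ≤ Real.log ((B.Mu : ℝ) / P.s0) := by
  have hD' : (0 : ℝ) < P.D := by exact_mod_cast hD
  have s0 : (0 : ℝ) < P.s0 := by exact_mod_cast hs0
  have M0 : (0 : ℝ) < B.Mu := by exact_mod_cast hM
  rw [phi_of_le h]
  have l := Real.log_le_log (σ0_pos hD hs0) h
  unfold σ0 at l; unfold lM
  rw [Real.log_div s0.ne' hD'.ne'] at l
  rw [Real.log_div M0.ne' hD'.ne', Real.log_div M0.ne' s0.ne']
  linarith

theorem bar_le (hD : 1 ≤ P.D) (hA : B.arc e A) (h1 : (P.s0 : ℤ) ≤ x + A.o1)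
    (h3 : (P.s0 : ℤ) ≤ A.o3 - x) (hs0 : 1 ≤ P.s0) :
    bar P B A x ≤ A.p * s1 P A x + (A.c1 + A.c2 + A.c3) * Real.log ((B.Mu : ℝ) / P.s0) := by
  have hD' : (0 : ℝ) < P.D := by exact_mod_cast hD
  obtain ⟨-, -, -, -, -, -, -, o12, oM⟩ := hA
  have hM : 1 ≤ B.Mu := by omega
  have a1 : (P.s0 : ℝ) ≤ (x : ℝ) + A.o1 := by exact_mod_cast h1
  have a3 : (P.s0 : ℝ) ≤ (A.o3 : ℝ) - x := by exact_mod_cast h3
  have b1 : (A.o1 : ℝ) ≤ A.o2 := by exact_mod_cast o12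
  have t1 := phi_lM_le (B := B) hD hs0 hM (s := s1 P A x) (div_le_div_of_nonneg_right a1 hD'.le)
  have t2 := phi_lM_le (B := B) hD hs0 hM (s := s2 P A x)
    (div_le_div_of_nonneg_right (by linarith) hD'.le)
  have t3 := phi_lM_le (B := B) hD hs0 hM (s := s3 P A x) (div_le_div_of_nonneg_right a3 hD'.le)
  have u1 := mul_le_mul_of_nonneg_left t1 (Nat.cast_nonneg (α := ℝ) A.c1)
  have u2 := mul_le_mul_of_nonneg_left t2 (Nat.cast_nonneg (α := ℝ) A.c2)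
  have u3 := mul_le_mul_of_nonneg_left t3 (Nat.cast_nonneg (α := ℝ) A.c3)
  unfold bar; linarith

/-- convexity: the tangent lies below the barrier -/
theorem bar_tangent (hD : 1 ≤ P.D) (hs0 : 1 ≤ P.s0) (hA : B.arc e A) (h1 : 0 < x + A.o1)
    (h3 : 0 < A.o3 - x) (k1 : 0 < x + c + A.o1) (k3 : 0 < A.o3 - (x + c)) :
    bar P B A x + gr P A x * (c / P.D) ≤ bar P B A (x + c) := by
  obtain ⟨a1, a2, a3⟩ := slacks hD hA h1 h3
  obtain ⟨b1, b2, b3⟩ := slacks hD hA k1 k3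
  have t1 := phi_tangent (σ0_pos hD hs0) b1.1 a1.1
  have t2 := phi_tangent (σ0_pos hD hs0) b2.1 a2.1
  have t3 := phi_tangent (σ0_pos hD hs0) b3.1 a3.1
  have u1 := mul_le_mul_of_nonneg_left t1 (Nat.cast_nonneg (α := ℝ) A.c1)
  have u2 := mul_le_mul_of_nonneg_left t2 (Nat.cast_nonneg (α := ℝ) A.c2)
  have u3 := mul_le_mul_of_nonneg_left t3 (Nat.cast_nonneg (α := ℝ) A.c3)
  simp only [bar, gr, s1_add, s2_add, s3_add] at *
  nlinarith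

end Crest.Agent.N325.Ip
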