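import Crest.Agent.N325.Ip.Impl

/-!
# Row 325 (helper37): the scales of the layer `Ip` in closed form

From the constants of the tower (`th`, `ψ`, staleness `er ≤ ε θ`, `Kb lb ≤ κ`), the refresh factor
`τ` (`thr = τ θ`), and the needs of the user (width `W`, weights `cb`, prices `pb`, potentials `F`,
inverse truncation point `Λ`) all scales are products.
-/

set_option autoImplicit false

namespace Crest.Agent.N325.Ip

/-- the raw inputs -/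
structure Raw where
  th : ℕ
  ψ : ℕ
  ε : ℕ
  τ : ℕ
  Kb : ℕ
  W : ℕ
  cb : ℕ
  pb : ℕ
  F : ℕ
  Λ : ℕ
  fu : ℕ

namespace Raw

variable (r : Raw)

/-- smallest slack -/
def sm : ℕ := 16000 * r.th * r.Kb * r.cb * (r.F + 1)
/-- truncation point -/
def s0 : ℕ := r.sm * (r.F + 1)
/-- units -/
def D : ℕ := r.s0 * r.Λ
/-- scale of the lengths -/
def Gl : ℕ := 4000 * r.th * (r.ε + r.τ) * r.W
/-- threshold of the reports -/
def θ : ℕ := r.D * r.W * r.ψ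
/-- size of a step -/
def κ : ℕ := (r.ε + r.τ) * r.θ
/-- the stored parameters -/
def P : Pm := ⟨r.D, r.s0, 40 * r.th * r.Gl, r.Gl, r.τ * r.θ, r.fu⟩
/-- the ghost bounds -/
def B (m nb : ℕ) : Bn := ⟨m, nb, r.W * r.D, r.cb, r.pb, r.sm, r.F⟩
/-- bound on the lengths -/
def lb : ℕ := lbI r.P (r.B 0 0)
/-- bound on the gradients -/
def gb : ℕ := gbI r.P (r.B 0 0)

theorem lbI_eq (m nb : ℕ) : lbI r.P (r.B m nb) = r.lb := rfl
theorem gbI_eq (m nb : ℕ) : gbI r.P (r.B m nb) = r.gb := rfl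

/-- positivity of the inputs -/
structure Pos : Prop where
  ψ : 1 ≤ r.ψ
  ψth : r.ψ ≤ r.th
  τ : 1 ≤ r.τ
  Kb : 1 ≤ r.Kb
  W : 1 ≤ r.W
  cb : 1 ≤ r.cb
  Λ : 1 ≤ r.Λ

/-- all inputs are at most `Y` -/
structure Le (Y : ℕ) : Prop where
  big : 16000 ≤ Y
  th : r.th ≤ Y
  ρ : r.ε + r.τ ≤ Y
  Kb : r.Kb ≤ Y
  W : r.W ≤ Y
  cb : r.cb ≤ Y
  pb : r.pb ≤ Y
  F : r.F + 1 ≤ Y
  Λ : r.Λ ≤ Y

variable {r}

theorem Pos.th (h : r.Pos) : 1 ≤ r.th := h.ψ.trans h.ψth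

theorem Pos.Kb_sm (h : r.Pos) : 16000 * r.Kb ≤ r.sm := by
  have h1 : 1 ≤ r.th * r.cb * (r.F + 1) :=
    Nat.mul_pos (Nat.mul_pos h.th h.cb) (Nat.succ_pos _)
  calc 16000 * r.Kb = 16000 * r.Kb * 1 := (mul_one _).symm
    _ ≤ 16000 * r.Kb * (r.th * r.cb * (r.F + 1)) := Nat.mul_le_mul_left _ h1
    _ = r.sm := by unfold sm; ring

theorem Pos.sm (h : r.Pos) : 1 ≤ r.sm := by have := h.Kb_sm; have := h.Kb; omega
theorem sm_le_s0 (r : Raw) : r.sm ≤ r.s0 := Nat.le_mul_of_pos_right _ (Nat.succ_pos _)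
theorem Pos.s0_le_D (h : r.Pos) : r.s0 ≤ r.D := Nat.le_mul_of_pos_right _ h.Λ
theorem Pos.s0 (h : r.Pos) : 1 ≤ r.s0 := h.sm.trans r.sm_le_s0
theorem Pos.D (h : r.Pos) : 1 ≤ r.D := h.s0.trans h.s0_le_D
theorem Pos.D_le_θ (h : r.Pos) : r.D * r.W ≤ r.θ := Nat.le_mul_of_pos_right _ h.ψ
theorem Pos.θ (h : r.Pos) : 1 ≤ r.θ := (Nat.mul_pos h.D h.W).trans_le h.D_le_θ
theorem Pos.θ_le_κ (h : r.Pos) : r.θ ≤ r.κ :=
  Nat.le_mul_of_pos_left _ (by have := h.τ; omega)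

theorem key (r : Raw) : r.D * r.Gl * r.ψ = 4000 * r.th * r.κ := by
  unfold Gl κ θ; ring

/-- the truncation point -/
theorem Pos.σ0 (h : r.Pos) : σ0 r.P = 1 / r.Λ := by
  have h1 : (r.s0 : ℝ) ≠ 0 := by have := h.s0; positivity
  change (r.s0 : ℝ) / (r.D : ℕ) = _
  rw [Raw.D]; push_cast; field_simp

/-- the normalisation -/
theorem Pos.lM (h : r.Pos) (m nb : ℕ) : lM r.P (r.B m nb) = Real.log r.W := by
  have h1 : (r.D : ℝ) ≠ 0 := by have := h.D; positivity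
  change Real.log (((r.W * r.D : ℕ) : ℝ) / (r.D : ℕ)) = _
  push_cast; rw [mul_div_assoc, div_self h1, mul_one]

/-- **the numeric side conditions** -/
theorem Pos.num (h : r.Pos) {er : ℕ} (he : er ≤ r.ε * r.θ) (m nb : ℕ) :
    Num r.P (r.B m nb) r.th r.ψ er r.κ where
  D := h.D
  ψ1 := h.ψ
  ψth := h.ψth
  sm1 := h.sm
  sm := le_rfl
  s0 := h.s0_le_D.trans (Nat.le_mul_of_pos_left _ h.W)
  Gl := by
    change 100 * (r.W * r.D) ≤ r.Gl * r.D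
    have h1 : 1 ≤ r.th * (r.ε + r.τ) := Nat.mul_pos h.th (by have := h.τ; omega)
    calc 100 * (r.W * r.D) ≤ 4000 * (r.W * r.D) * 1 := by omega
      _ ≤ 4000 * (r.W * r.D) * (r.th * (r.ε + r.τ)) := Nat.mul_le_mul_left _ h1
      _ = r.Gl * r.D := by unfold Gl; ring
  Gg := rfl
  er := by
    change 4000 * r.th * (er + r.τ * r.θ) ≤ r.D * r.Gl * r.ψ
    rw [key]
    exact Nat.mul_le_mul_left _ (by unfold κ; rw [add_mul]; omega)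
  κ1 := (key r).ge
  κ2 := by
    change r.D * r.Gl * r.ψ ≤ _
    rw [key]
    exact Nat.mul_le_mul_right _ (Nat.mul_le_mul_right _ (by norm_num))

theorem Pos.quo (h : r.Pos) (c : ℕ) :
    4 * r.Kb * (c * r.Gl * r.cb * r.s0 * r.D / (r.sm * r.sm)) ≤ c * ((r.ε + r.τ) * (r.D * r.W)) := by
  have h0 : 0 < r.sm * r.sm := Nat.mul_pos h.sm h.sm
  refine (Nat.mul_div_le_mul_div_assoc _ _ _).trans (Nat.div_le_of_le_mul (le_of_eq ?_))
  have h1 : 4 * r.Kb * (r.Gl * r.cb * (r.F + 1)) = r.sm * ((r.ε + r.τ) * r.W) := by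
    unfold Gl Raw.sm; ring
  calc 4 * r.Kb * (c * r.Gl * r.cb * r.s0 * r.D)
      = 4 * r.Kb * (r.Gl * r.cb * (r.F + 1)) * (c * r.sm * r.D) := by unfold Raw.s0; ring
    _ = _ := by rw [h1]; ring

/-- **walks are short compared with a step** -/
theorem Pos.Kb_lb (h : r.Pos) : r.Kb * r.lb ≤ r.κ := by
  have h1 := h.quo 1
  simp only [one_mul] at h1
  have h2 : (r.ε + r.τ) * (r.D * r.W) ≤ r.κ := Nat.mul_le_mul_left _ h.D_le_θ
  have h3 : 16000 * r.Kb ≤ r.κ :=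
    (h.Kb_sm.trans (r.sm_le_s0.trans h.s0_le_D)).trans
      ((Nat.le_mul_of_pos_right _ h.W).trans (h.D_le_θ.trans h.θ_le_κ))
  change r.Kb * (r.Gl * r.cb * r.s0 * r.D / (r.sm * r.sm) + 3) ≤ _
  rw [mul_add]
  rw [mul_assoc] at h1
  omega

theorem Pos.lb_le (h : r.Pos) : r.lb ≤ r.κ := (Nat.le_mul_of_pos_left _ h.Kb).trans h.Kb_lb

theorem Pos.gb_le (h : r.Pos) : r.gb ≤ 40 * r.th * r.Gl * r.pb + 10 * r.th * r.κ := by
  have h1 := h.quo (40 * r.th)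
  have h2 : (r.ε + r.τ) * (r.D * r.W) ≤ r.κ := Nat.mul_le_mul_left _ h.D_le_θ
  have h3 := Nat.mul_le_mul_left (40 * r.th) h2
  have h4 := Nat.mul_le_mul_right (40 * r.th * r.Gl * r.cb * r.s0 * r.D / (r.sm * r.sm))
    (Nat.mul_le_mul_left 4 h.Kb)
  change 40 * r.th * r.Gl * r.pb + 40 * r.th * r.Gl * r.cb * r.s0 * r.D / (r.sm * r.sm) ≤ _
  have h5 : 40 * r.th * r.κ = 4 * (10 * r.th * r.κ) := by ring
  omega

section bounds

variable {Y : ℕ}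

theorem mul_pow_le {a b i j : ℕ} (ha : a ≤ Y ^ i) (hb : b ≤ Y ^ j) : a * b ≤ Y ^ (i + j) := by
  rw [pow_add]; exact Nat.mul_le_mul ha hb

theorem mul_le1 {a b i : ℕ} (ha : a ≤ Y ^ i) (hb : b ≤ Y) : a * b ≤ Y ^ (i + 1) := by
  rw [pow_succ]; exact Nat.mul_le_mul ha hb

theorem Le.c (h : r.Le Y) {c : ℕ} (hc : c ≤ 16000) : c ≤ Y ^ 1 := by
  rw [pow_one]; exact hc.trans h.big
theorem Le.up (h : r.Le Y) {a i j : ℕ} (ha : a ≤ Y ^ i) (hij : i ≤ j) : a ≤ Y ^ j :=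
  ha.trans (Nat.pow_le_pow_right (by have := h.big; omega) hij)
theorem Le.sm (h : r.Le Y) : r.sm ≤ Y ^ 5 :=
  mul_le1 (mul_le1 (mul_le1 (mul_le1 (h.c le_rfl) h.th) h.Kb) h.cb) h.F
theorem Le.s0 (h : r.Le Y) : r.s0 ≤ Y ^ 6 := mul_le1 h.sm h.F
theorem Le.D (h : r.Le Y) : r.D ≤ Y ^ 7 := mul_le1 h.s0 h.Λ
theorem Le.Mu (h : r.Le Y) : r.W * r.D ≤ Y ^ 8 := by rw [mul_comm]; exact mul_le1 h.D h.W
theorem Le.Gl (h : r.Le Y) : r.Gl ≤ Y ^ 4 :=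
  mul_le1 (mul_le1 (mul_le1 (h.c (by norm_num)) h.th) h.ρ) h.W
theorem Le.Gg (h : r.Le Y) : 40 * r.th * r.Gl ≤ Y ^ 6 :=
  mul_pow_le (i := 2) (mul_le1 (h.c (by norm_num)) h.th) h.Gl
theorem Le.θ (h : r.Le Y) (p : r.Pos) : r.θ ≤ Y ^ 9 := mul_le1 (mul_le1 h.D h.W) (p.ψth.trans h.th)
theorem Le.κ (h : r.Le Y) (p : r.Pos) : r.κ ≤ Y ^ 10 := by
  rw [Raw.κ, mul_comm]; exact mul_le1 (h.θ p) h.ρ
theorem Le.thr (h : r.Le Y) (p : r.Pos) : r.τ * r.θ ≤ Y ^ 10 :=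
  (Nat.mul_le_mul_right _ (Nat.le_add_left _ _)).trans (h.κ p)
theorem Le.lb (h : r.Le Y) (p : r.Pos) : r.lb ≤ Y ^ 10 := p.lb_le.trans (h.κ p)
theorem Le.two (h : r.Le Y) {a b i : ℕ} (ha : a ≤ Y ^ i) (hb : b ≤ Y ^ i) : a + b ≤ Y ^ (i + 1) := by
  have h1 : 2 * Y ^ i ≤ Y * Y ^ i := Nat.mul_le_mul_right _ (by have := h.big; omega)
  rw [pow_succ']; omega
theorem Le.gb (h : r.Le Y) (p : r.Pos) : r.gb ≤ Y ^ 13 :=
  p.gb_le.trans (h.two (i := 12) (h.up (mul_le1 h.Gg h.pb) (by norm_num))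
    (mul_pow_le (i := 2) (mul_le1 (h.c (by norm_num)) h.th) (h.κ p)))

end bounds

end Raw

instance : Rp Raw :=
  Rp.via fun r => (r.th, r.ψ, r.ε, r.τ, r.Kb, r.W, r.cb, r.pb, r.F, r.Λ, r.fu)

/-- the program: stored parameters, `θ`, `κ`, bounds on lengths and gradients -/
def parR (r : Raw) : R (Pm × ℕ × ℕ × ℕ × ℕ) := do
  let sm ← nat (16000 * r.th * r.Kb * r.cb * (r.F + 1))
  let s0 ← nat (sm * (r.F + 1))
  let D ← nat (s0 * r.Λ)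
  let Gl ← nat (4000 * r.th * (r.ε + r.τ) * r.W)
  let Gg ← nat (40 * r.th * Gl)
  let θ ← nat (D * r.W * r.ψ)
  let κ ← nat ((r.ε + r.τ) * θ)
  let thr ← nat (r.τ * θ)
  let lb ← nat (Gl * r.cb * s0 * D / (sm * sm) + 3)
  let gb ← nat (Gg * r.pb + Gg * r.cb * s0 * D / (sm * sm))
  pure (⟨D, s0, Gg, Gl, thr, r.fu⟩, θ, κ, lb, gb)

theorem sp_parR {g : Gl} {r : Raw} {Y : ℕ} (p : r.Pos) (h : r.Le Y) (hX : Y ^ 13 ≤ g.X) :
    Sp g (parR r) fun x t => x = (r.P, r.θ, r.κ, r.lb, r.gb) ∧ t = 0 := by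
  simp only [parR, sp_bind, sp_nat, sp_pure]
  exact ⟨(h.up h.sm (by norm_num)).trans hX, (h.up h.s0 (by norm_num)).trans hX,
    (h.up h.D (by norm_num)).trans hX, (h.up h.Gl (by norm_num)).trans hX,
    (h.up h.Gg (by norm_num)).trans hX, (h.up (h.θ p) (by norm_num)).trans hX,
    (h.up (h.κ p) (by norm_num)).trans hX, (h.up (h.thr p) (by norm_num)).trans hX,
    (h.up (h.lb p) (by norm_num)).trans hX, (h.gb p).trans hX, rfl, trivial⟩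

@[fun_prop] theorem impl_parR {α : Type} [Rp α] {r : α → Raw} (hr : Pu true r) :
    Impl fun a => parR (r a) := by
  unfold parR; impl

end Crest.Agent.N325.Ip
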