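import Crest.Agent.N325.Tw.Defs

/-! # Row 325 (helper37): the specification of a tower is monotone in its constants -/

set_option autoImplicit false
open Finset

namespace Crest.Agent.N325.Tw

theorem Flat.weak {G : Gr} {a b : ℕ} (h : Flat G a) (hab : a ≤ b) : Flat G b := by
  obtain ⟨z, hz⟩ := h
  refine ⟨z, fun e he => (hz e he).trans ?_⟩
  exact mul_le_mul_of_nonneg_right (by exact_mod_cast hab) (Nat.cast_nonneg _)

theorem Good.weak {G : Gr} {a b κ : ℕ} {c : ℕ → ℤ} (h : Good a κ G c) (hab : b ≤ a) :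
    Good b κ G c := by
  refine ⟨h.1, h.2.1, le_trans ?_ h.2.2⟩
  have : (b : ℤ) * κ ≤ a * κ := by exact_mod_cast Nat.mul_le_mul_right κ hab
  linarith

theorem RepOk.weak {E : Finset ℕ} {a b : ℕ} {r : Rep} (h : RepOk E a r) (hab : a ≤ b) :
    RepOk E b r := fun x hx => ⟨(h x hx).1, (h x hx).2.trans hab⟩

theorem Gr.Ok.weak {G : Gr} {c c' : Bd} (h : G.Ok c) (hm : c.m ≤ c'.m) (hn : c.nb ≤ c'.nb)
    (hl : c.lb ≤ c'.lb) (hg : c.gb ≤ c'.gb) : G.Ok c' :=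
  ⟨h.1, h.2.1.trans hm, fun e he =>
    let ⟨a, b, c, d, e, f⟩ := h.2.2 e he
    ⟨a.trans hn, b.trans hn, c.trans hn, d, e.trans hl, f.trans hg⟩⟩

/-- `k'` promises less than `k` -/
structure TC.Weak (k k' : TC) : Prop where
  m : k'.c.m ≤ k.c.m
  nb : k'.c.nb ≤ k.c.nb
  lb : k'.c.lb ≤ k.c.lb
  gb : k'.c.gb ≤ k.c.gb
  th : k.th ≤ k'.th
  ψ : k'.ψ ≤ k.ψ
  er : k.er ≤ k'.er
  rp : k.rp ≤ k'.rp
  wt : k'.wt ≤ k.wt
  cc : k'.cc ≤ k.cc
  AU : k.AU ≤ k'.AU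
  AS : k.AS ≤ k'.AS
  AD : k.AD ≤ k'.AD
  AR : k.AR ≤ k'.AR

theorem TowerSpec.weak {T : Type} {g : Gl} {θ κ : ℕ} {run : Cmd × T → R (T × Rep × Bool)}
    {k k' : TC} {Sh : T → Prop} {I : T → Gr → (ℕ → ℤ) → Prop} {Ψ : T → ℕ}
    (h : TowerSpec g θ κ run k Sh I Ψ) (w : k.Weak k') : TowerSpec g θ κ run k' Sh I Ψ := by
  have ok : ∀ {G : Gr}, G.Ok k'.c → G.Ok k.c := fun hG => hG.weak w.m w.nb w.lb w.gb
  have e1 : ∀ n, θ * k'.cc * n ≤ θ * k.cc * n := fun n =>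
    Nat.mul_le_mul_right _ (Nat.mul_le_mul_left _ w.cc)
  have e2 : ∀ n, k'.wt * n ≤ k.wt * n := fun n => Nat.mul_le_mul_right _ w.wt
  refine ⟨h.sh, fun hI e he => (h.stale hI e he).trans w.er, fun o hI ho h1 h2 => ?_,
    fun o hI h1 => ?_, fun o hI h1 => ?_, fun o hs => ?_⟩
  · refine (h.upd o hI ho (ok h1) (ok h2)).mono ?_
    rintro r t ⟨f', a, b, c, d⟩
    refine ⟨f', a, b.weak w.rp, c, le_trans ?_ (d.trans ?_)⟩
    · exact add_le_add (add_le_add le_rfl (e1 _)) (e2 _)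
    · exact add_le_add le_rfl (Nat.mul_le_mul_left _ w.AU)
  · refine (h.step o hI (ok h1)).mono ?_
    rintro r t ⟨f', c', a, b, c, d, e⟩
    refine ⟨f', c', a, b.weak w.rp, c, ?_, le_trans ?_ (e.trans ?_)⟩
    · split_ifs at d ⊢
      · exact d.weak w.ψ
      · exact ⟨d.1.weak w.th, d.2⟩
    · exact add_le_add (add_le_add le_rfl (e1 _)) (e2 _)
    · exact add_le_add le_rfl (Nat.mul_le_mul_left _ w.AS)
  · refine (h.dump o hI (ok h1)).mono ?_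
    rintro r t ⟨a, b, c⟩
    refine ⟨a.weak w.rp, b, le_trans ?_ (c.trans ?_)⟩
    · exact add_le_add (add_le_add le_rfl (e1 _)) (e2 _)
    · exact add_le_add le_rfl (Nat.mul_le_mul_left _ w.AD)
  · refine (h.reset o hs).mono ?_
    rintro r t ⟨a, b, c⟩
    exact ⟨a, b, c.trans (Nat.mul_le_mul_left _ w.AR)⟩

end Crest.Agent.N325.Tw
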