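import Crest.Agent.N325.Ip.Spec
import Crest.Agent.N325.Ip.Par
import Crest.Agent.N325.Ip.Weak

/-! # Row 325 (helper37): the layer `Ip` on a tower, constants in closed form -/

set_option autoImplicit false

namespace Crest.Agent.N325.Ip

open Crest.Agent.N325.Tw

/-- the constants of the layer from the amortised times of the tower, `Γ ≥ th / ψ` -/
def icOf (cl AU AS AR Γ : ℕ) : IC :=
  ⟨cl, AR + 1, AU + cl + 4, AS + 6, (AS + 5) * 10 ^ 6 * Γ ^ 2⟩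

/-- what the layer asks of the tower -/
structure Ask (r : Raw) (k : TC) (m nb cl AU AS AR Γ Y : ℕ) : Prop where
  hm : m ≤ k.c.m
  mnb : m ≤ k.c.nb
  hnb : nb ≤ k.c.nb
  lb : r.lb ≤ k.c.lb
  gb : r.gb ≤ k.c.gb
  th : k.th ≤ r.th
  ψ : r.ψ ≤ k.ψ
  hΓ : r.th ≤ Γ * r.ψ
  er : k.er ≤ r.ε * r.θ
  rp : k.rp ≤ Y ^ 11
  wt : 2 * AU + 4 + cl ≤ k.wt * r.τ
  cc : 2 ≤ k.cc
  hAU : k.AU ≤ AU
  hAS : k.AS ≤ AS
  hAR : k.AR ≤ AR
  F : r.F + 2 * (AU + AS) + 10 ≤ Y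
  fu : Y < r.fu

/-- **seam (I)** -/
theorem ipTop {T : Type} {g : Gl} {run : Cmd × T → R (T × Rep × Bool)} {k : TC} {Sh : T → Prop}
    {It : T → Gr → (ℕ → ℤ) → Prop} {Ψ : T → ℕ} {r : Raw} {m nb cl AU AS AR Γ Y : ℕ}
    (hS : TowerSpec g r.θ r.κ run k Sh It Ψ) (p : r.Pos) (h : r.Le Y) (hX : Y ^ 13 ≤ g.X)
    (a : Ask r k m nb cl AU AS AR Γ Y) :
    ∃ I Φ, IpSpec g run r.P (r.B m nb) (icOf cl AU AS AR Γ) Sh I Φ := by
  let k' : TC := ⟨k.c, r.th, r.ψ, k.er, k.rp, k.wt, k.cc, AU, AS, k.AD, AR⟩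
  have hS' : TowerSpec g r.θ r.κ run k' Sh It Ψ :=
    hS.weak ⟨le_rfl, le_rfl, le_rfl, le_rfl, a.th, a.ψ, le_rfl, le_rfl, le_rfl, le_rfl, a.hAU, a.hAS,
      le_rfl, a.hAR⟩
  refine ⟨_, _, ipSpec hS' (p.num a.er m nb) ⟨p.θ, a.cc, a.hm, a.mnb, a.hnb, a.lb, a.gb, ?_,
    (h.up (h.lb p) (by norm_num)).trans hX, (h.gb p).trans hX, ?_, ?_, le_rfl, le_rfl, le_rfl, ?_⟩⟩
  · change r.θ * (2 * AU + 4 + cl) ≤ k.wt * (r.τ * r.θ)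
    rw [← mul_assoc, mul_comm]
    exact Nat.mul_le_mul_right _ a.wt
  · change r.W * r.D + k.er + k.rp * (r.F + 2 * (AU + AS) + 10) ≤ g.X
    have h1 : k.er ≤ Y ^ 10 :=
      a.er.trans ((Nat.mul_le_mul_right _ (Nat.le_add_right _ _)).trans (h.κ p))
    exact (h.two (i := 12) (h.up (h.two (h.up h.Mu (by norm_num)) h1) (by norm_num))
      (Raw.mul_le1 a.rp a.F)).trans hX
  · change r.F + AU + AS + 10 < r.fu
    have := a.F; have := a.fu; omega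
  · change (AS + 5) * (10 ^ 6 * r.th ^ 2) ≤ (AS + 5) * 10 ^ 6 * Γ ^ 2 * r.ψ ^ 2
    rw [mul_assoc, mul_assoc, ← mul_pow]
    exact Nat.mul_le_mul_left _ (Nat.mul_le_mul_left _ (Nat.pow_le_pow_left a.hΓ 2))

end Crest.Agent.N325.Ip
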