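import Crest.Agent.N325.Tw.Defs
import Crest.Agent.N325.Ipm.Phi

/-!
# Row 325 (helper62): the primal l1 analytic centre on the tower — definitions

Flows are integers in units of `1/D`.  An arc carries the barrier
`p s₁ + c₁ φ(s₁) + c₂ φ(s₂) + c₃ φ(s₃)`, `s₁ = (x+o₁)/D`, `s₂ = (x+o₂)/D`, `s₃ = (o₃-x)/D`,
`φ` = the truncated `-log` (each term normalised to be `≥ 0`).
-/

set_option autoImplicit false
open Finset

namespace Crest.Agent.N325.Ip

open Crest.Agent.N325.Tw Crest.Agent.N325.Ipm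

/-- an arc: tail, head, price, two lower barriers, one upper barrier (offsets in units) -/
structure Arc where
  a : ℕ
  b : ℕ
  p : ℕ
  c1 : ℕ
  o1 : ℕ
  c2 : ℕ
  o2 : ℕ
  c3 : ℕ
  o3 : ℕ

/-- stored parameters: units, truncation point (units), scale of gradients and of lengths,
threshold of a refresh, fuel -/
structure Pm where
  D : ℕ
  s0 : ℕ
  Gg : ℕ
  Gl : ℕ
  thr : ℕ
  fu : ℕ

/-- ghost bounds: ids `< m`, names, width of the domains (units), weights, prices, smallest slack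
(units), bound on the potentials -/
structure Bn where
  m : ℕ
  nb : ℕ
  Mu : ℕ
  cb : ℕ
  pb : ℕ
  sm : ℕ
  F : ℕ

/-- the arc `A` with id `e` respects the bounds -/
def Bn.arc (B : Bn) (e : ℕ) (A : Arc) : Prop :=
  e < B.m ∧ A.a ≤ B.nb ∧ A.b ≤ B.nb ∧ A.p ≤ B.pb ∧ 1 ≤ A.c1 ∧ 1 ≤ A.c3 ∧
    A.c1 + A.c2 + A.c3 ≤ B.cb ∧ A.o1 ≤ A.o2 ∧ A.o2 + A.o3 ≤ B.Mu

/-- the flow `x` is well inside the domain of `A` -/
def Dom (B : Bn) (A : Arc) (x : ℤ) : Prop := (B.sm : ℤ) ≤ x + A.o1 ∧ (B.sm : ℤ) ≤ A.o3 - x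

/-! ## the real barrier -/

/-- first slack -/
noncomputable def s1 (P : Pm) (A : Arc) (x : ℤ) : ℝ := ((x : ℝ) + A.o1) / P.D
/-- second slack -/
noncomputable def s2 (P : Pm) (A : Arc) (x : ℤ) : ℝ := ((x : ℝ) + A.o2) / P.D
/-- third slack -/
noncomputable def s3 (P : Pm) (A : Arc) (x : ℤ) : ℝ := ((A.o3 : ℝ) - x) / P.D
/-- truncation point -/
noncomputable def σ0 (P : Pm) : ℝ := (P.s0 : ℝ) / P.D
/-- normalisation -/
noncomputable def lM (P : Pm) (B : Bn) : ℝ := Real.log ((B.Mu : ℝ) / P.D)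

/-- the barrier of an arc -/
noncomputable def bar (P : Pm) (B : Bn) (A : Arc) (x : ℤ) : ℝ :=
  A.p * s1 P A x + A.c1 * (phi (σ0 P) (s1 P A x) + lM P B) +
    A.c2 * (phi (σ0 P) (s2 P A x) + lM P B) + A.c3 * (phi (σ0 P) (s3 P A x) + lM P B)
/-- its derivative -/
noncomputable def gr (P : Pm) (A : Arc) (x : ℤ) : ℝ :=
  A.p - A.c1 * wt (σ0 P) (s1 P A x) - A.c2 * wt (σ0 P) (s2 P A x) + A.c3 * wt (σ0 P) (s3 P A x)
/-- its length -/
noncomputable def ln (P : Pm) (A : Arc) (x : ℤ) : ℝ :=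
  A.c1 * wt (σ0 P) (s1 P A x) + A.c2 * wt (σ0 P) (s2 P A x) + A.c3 * wt (σ0 P) (s3 P A x)

/-- `x` is close to the reference value `r` in the local norm -/
def Near (P : Pm) (A : Arc) (ε : ℝ) (x r : ℤ) : Prop := |(x : ℝ) - r| / P.D * ln P A r ≤ ε

/-- ghost network: arcs and true flows -/
structure Net where
  E : Finset ℕ
  arc : ℕ → Arc
  X : ℕ → ℤ

namespace Net
/-- no arcs -/
def emp : Net := ⟨∅, fun _ => ⟨0, 0, 0, 0, 0, 0, 0, 0, 0⟩, fun _ => 0⟩
/-- insertion -/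
def ins (N : Net) (e : ℕ) (A : Arc) (x : ℤ) : Net :=
  ⟨insert e N.E, Function.update N.arc e A, Function.update N.X e x⟩
/-- deletion -/
def del (N : Net) (e : ℕ) : Net := ⟨N.E.erase e, N.arc, N.X⟩
/-- adding flow -/
def add (N : Net) (c : ℕ → ℤ) : Net := ⟨N.E, N.arc, fun e => N.X e + c e⟩
/-- circulations -/
def Circ (N : Net) (c : ℕ → ℤ) : Prop :=
  ∀ z : ℕ → ℤ, ∑ e ∈ N.E, c e * (z (N.arc e).b - z (N.arc e).a) = 0
end Net

/-- the potential -/
noncomputable def pot (P : Pm) (B : Bn) (N : Net) : ℝ := ∑ e ∈ N.E, bar P B (N.arc e) (N.X e)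

/-- quiescence: approximate duals exist -/
def Quiet (P : Pm) (N : Net) : Prop :=
  ∃ y : ℕ → ℝ, ∀ e ∈ N.E, |gr P (N.arc e) (N.X e) - (y (N.arc e).b - y (N.arc e).a)| ≤
    ln P (N.arc e) (N.X e) / 10

/-! ## rounding -/

/-- `⌊G c wt(s/D)⌋` -/
def wI (P : Pm) (G c s : ℕ) : ℕ :=
  if P.s0 ≤ s then G * c * P.D / s else G * c * P.s0 * P.D / (s * s)
/-- rounded length -/
def lI (P : Pm) (A : Arc) (x : ℤ) : ℕ :=
  wI P P.Gl A.c1 (x + A.o1).toNat + wI P P.Gl A.c2 (x + A.o2).toNat +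
    wI P P.Gl A.c3 (A.o3 - x).toNat + 3
/-- rounded gradient -/
def gI (P : Pm) (A : Arc) (x : ℤ) : ℤ :=
  (P.Gg * A.p + wI P P.Gg A.c3 (A.o3 - x).toNat : ℕ) -
    (wI P P.Gg A.c1 (x + A.o1).toNat + wI P P.Gg A.c2 (x + A.o2).toNat : ℕ)
/-- the edge handed to the tower -/
def edI (P : Pm) (A : Arc) (x : ℤ) : Ed := ⟨A.a, A.b, lI P A x, gI P A x⟩

/-- bound on the rounded lengths -/
def lbI (P : Pm) (B : Bn) : ℕ := P.Gl * B.cb * P.s0 * P.D / (B.sm * B.sm) + 3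
/-- bound on the rounded gradients -/
def gbI (P : Pm) (B : Bn) : ℕ := P.Gg * B.pb + P.Gg * B.cb * P.s0 * P.D / (B.sm * B.sm)

/-! ## the programs -/

/-- state: tower, arcs, known flows, reference flows, lengths, refreshed arcs -/
structure St (T : Type) where
  tw : T
  arc : Arr Arc
  kn : Arr ℤ
  rf : Arr ℤ
  ll : Arr ℕ
  log : List ℕ

section prog
variable {T : Type} (run : Cmd × T → R (T × Rep × Bool)) (P : Pm)

/-- book one report -/
def app1 (x : ℕ × ℤ) (u : Arr ℤ × List ℕ) : R (Arr ℤ × List ℕ) := do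
  let v ← int (u.1.get x.1 + x.2)
  pure (u.1.set x.1 v, x.1 :: u.2)

/-- raw deletion -/
def del0 (s : St T) (C : List ℕ) (e : ℕ) : R (St T × List ℕ) := do
  let r ← call run ((0, (e, none)), s.tw)
  let u ← foldL app1 r.2.1 (s.kn, C)
  pure (⟨r.1, s.arc, u.1, s.rf, s.ll.set e 0, s.log⟩, u.2)

/-- raw insertion -/
def ins0 (s : St T) (C : List ℕ) (e : ℕ) (A : Arc) (x : ℤ) : R (St T × List ℕ) := do
  let l ← nat (lI P A x)
  let g ← int (gI P A x)
  let r ← call run ((0, (e, some ⟨A.a, A.b, l, g⟩)), s.tw)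
  let u ← foldL app1 r.2.1 (s.kn.set e x, C)
  pure (⟨r.1, s.arc.set e A, u.1, s.rf.set e x, s.ll.set e l, e :: s.log⟩, u.2)

/-- check one arc, refresh it if it moved -/
def chk (u : St T × List ℕ) : R (St T × List ℕ) :=
  List.casesOn u.2 (pure u) fun e C =>
    if P.thr < (u.1.kn.get e - u.1.rf.get e).natAbs * u.1.ll.get e then do
      let v ← del0 run u.1 C e
      ins0 run P v.1 v.2 e (v.1.arc.get e) (v.1.kn.get e)
    else pure (u.1, C)

/-- check all arcs of the list -/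
def proc (u : St T × List ℕ) : R (St T) := do
  let v ← whileF (fun v => !v.2.isEmpty) (chk run P) P.fu u
  pure v.1

/-- **start** with no arcs -/
def init (t : T) : R (St T) := do
  let r ← call run ((3, (0, none)), t)
  pure ⟨r.1, .cst ⟨0, 0, 0, 0, 0, 0, 0, 0, 0⟩, .cst 0, .cst 0, .cst 0, []⟩

/-- **insert** the arc `A` with id `e` and flow `x` -/
def ins (s : St T) (e : ℕ) (A : Arc) (x : ℤ) : R (St T) := do
  let u ← ins0 run P s [] e A x
  proc run P u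

/-- **delete** the arc `e`, return its exact flow -/
def del (s : St T) (e : ℕ) : R (St T × ℤ) := do
  let u ← del0 run s [] e
  let s' ← proc run P u
  pure (s', u.1.kn.get e)

/-- **exact flow** of the arc `e` -/
def get (s : St T) (e : ℕ) : R (St T × ℤ) := do
  let u ← del run P s e
  let s' ← ins run P u.1 e (s.arc.get e) u.2
  pure (s', u.2)

/-- one step -/
def step1 (u : St T × Bool) : R (St T × Bool) := do
  let r ← call run ((1, (0, none)), u.1.tw)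
  let v ← foldL app1 r.2.1 (u.1.kn, [])
  let s' ← proc run P (⟨r.1, u.1.arc, v.1, u.1.rf, u.1.ll, u.1.log⟩, v.2)
  pure (s', r.2.2)

/-- **quiesce** -/
def qui (s : St T) : R (St T) := do
  let u ← whileF (fun u => u.2) (step1 run P) P.fu (s, true)
  pure u.1

end prog

/-- constants of the layer: price of an entry of the log, amortised times (start, update,
quiesce, per unit of potential) -/
structure IC where
  cl : ℕ
  AR : ℕ
  AU : ℕ
  AQ : ℕ
  AP : ℕ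

/-- bookkeeping of an operation of time `t` and amortised time `A`; `new` = the refreshed arcs -/
def Upd {T : Type} (k : IC) (Φ : St T → ℝ) (s s' : St T) (E : Finset ℕ) (new : List ℕ) (t : ℕ)
    (A : ℝ) : Prop :=
  s'.log = new ++ s.log ∧ (∀ e ∈ new, e ∈ E) ∧ (∀ e, e ∉ new → s'.rf.get e = s.rf.get e) ∧
    (t : ℝ) + Φ s' + k.cl * new.length ≤ Φ s + A

/-- **specification of the layer**: `I s N`, `Φ` pays the time -/
structure IpSpec {T : Type} (g : Gl) (run : Cmd × T → R (T × Rep × Bool)) (P : Pm) (B : Bn)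
    (k : IC) (Sh : T → Prop) (I : St T → Net → Prop) (Φ : St T → ℝ) : Prop where
  nonneg : ∀ {s N}, I s N → 0 ≤ Φ s
  sh : ∀ {s N}, I s N → Sh s.tw
  view : ∀ {s N}, I s N → ∀ e ∈ N.E, s.arc.get e = N.arc e ∧ B.arc e (N.arc e) ∧
    Dom B (N.arc e) (N.X e) ∧ Dom B (N.arc e) (s.rf.get e) ∧
    Near P (N.arc e) (1 / 100) (N.X e) (s.rf.get e)
  setLog : ∀ {s N} (l : List ℕ), I s N → I { s with log := l } N ∧ Φ { s with log := l } = Φ s
  init : ∀ {t}, Sh t → Sp g (init run t) fun s τ => I s Net.emp ∧ s.log = [] ∧ τ + Φ s ≤ k.AR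
  ins : ∀ {s N} (e : ℕ) (A : Arc) (x : ℤ), I s N → Φ s ≤ B.F → e ∉ N.E → B.arc e A → Dom B A x →
    Sp g (ins run P s e A x) fun s' τ => I s' (N.ins e A x) ∧ ∃ new, e ∈ new ∧
      (∀ e' ∈ new, s'.rf.get e' = (N.ins e A x).X e') ∧ Upd k Φ s s' (N.ins e A x).E new τ k.AU
  del : ∀ {s N} (e : ℕ), I s N → Φ s ≤ B.F → e ∈ N.E →
    Sp g (del run P s e) fun r τ => I r.1 (N.del e) ∧ r.2 = N.X e ∧ ∃ new,
      (∀ e' ∈ new, r.1.rf.get e' = N.X e') ∧ Upd k Φ s r.1 (N.del e).E new τ k.AU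
  get : ∀ {s N} (e : ℕ), I s N → Φ s + k.AU ≤ B.F → e ∈ N.E →
    Sp g (get run P s e) fun r τ => I r.1 N ∧ r.2 = N.X e ∧ ∃ new, e ∈ new ∧
      (∀ e' ∈ new, r.1.rf.get e' = N.X e') ∧ Upd k Φ s r.1 N.E new τ (2 * k.AU)
  qui : ∀ {s N}, I s N → Φ s + k.AP * pot P B N ≤ B.F →
    Sp g (qui run P s) fun s' τ => ∃ c, N.Circ c ∧ I s' (N.add c) ∧ Quiet P (N.add c) ∧
      pot P B (N.add c) ≤ pot P B N ∧ ∃ new,
        Upd k Φ s s' N.E new τ (k.AQ + k.AP * (pot P B N - pot P B (N.add c)))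

/-- the numeric side conditions on the scales (`th`, `ψ` = flatness and ratio of the tower,
`er` = staleness, `κ` = size of a step) -/
structure Num (P : Pm) (B : Bn) (th ψ er κ : ℕ) : Prop where
  D : 1 ≤ P.D
  ψ1 : 1 ≤ ψ
  ψth : ψ ≤ th
  sm1 : 1 ≤ B.sm
  sm : B.sm * (B.F + 1) ≤ P.s0
  s0 : P.s0 ≤ B.Mu
  Gl : 100 * B.Mu ≤ P.Gl * P.D
  Gg : P.Gg = 40 * th * P.Gl
  er : 4000 * th * (er + P.thr) ≤ P.D * P.Gl * ψ
  κ1 : 4000 * th * κ ≤ P.D * P.Gl * ψ
  κ2 : P.D * P.Gl * ψ ≤ 8000 * th * κ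

end Crest.Agent.N325.Ip
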