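import Crest.Agent.N325.Ip.Round

/-!
# Row 325, Ip (C): flatness gives quiescence, a good step lowers the potential (helper12)
-/

set_option autoImplicit false
open Finset

namespace Crest.Agent.N325.Ip

open Crest.Agent.N325.Tw Crest.Agent.N325.Ipm

variable {P : Pm} {B : Bn} {th ψ er κ e : ℕ} {A : Arc} {x r : ℤ}

/-- the graph of the tower is the rounded network at the reference flows -/
def Link (P : Pm) (B : Bn) (er : ℕ) (N : Net) (rf : ℕ → ℤ) (G : Gr) : Prop :=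
  G.E = N.E ∧ ∀ e ∈ N.E, B.arc e (N.arc e) ∧ Dom B (N.arc e) (N.X e) ∧ Dom B (N.arc e) (rf e) ∧
    G.ed e = edI P (N.arc e) (rf e) ∧ (N.X e - rf e).natAbs * lI P (N.arc e) (rf e) ≤ er + P.thr

theorem Num.Gl_pos (h : Num P B th ψ er κ) : 1 ≤ P.Gl := by
  have h1 := h.Gl; have := h.s0; have := h.s0_pos
  rcases Nat.eq_zero_or_pos P.Gl with k | k
  · rw [k, zero_mul] at h1; omega
  · exact k

theorem Num.dom_pos (h : Num P B th ψ er κ) (d : Dom B A x) : 0 < x + A.o1 ∧ 0 < A.o3 - x := by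
  have := h.sm1; have := d.1; have := d.2; omega

/-- the local comparison between the true arc and the rounded edge -/
theorem Num.cmp (h : Num P B th ψ er κ) (hA : B.arc e A) (hr : Dom B A r)
    (hx : (x - r).natAbs * lI P A r ≤ er + P.thr) :
    0 < ln P A r ∧ P.Gl * ln P A r ≤ lI P A r ∧ (lI P A r : ℝ) ≤ 103 / 100 * (P.Gl * ln P A r) ∧
      |ln P A x - ln P A r| ≤ ln P A r / 1000 ∧
      |gr P A x - gI P A r / P.Gg| ≤ 3 / 2000 * (ψ / th) * ln P A r := by
  obtain ⟨r1, r3⟩ := h.dom_pos hr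
  have hth : (1 : ℝ) ≤ th := by exact_mod_cast h.ψ1.trans h.ψth
  have hψ : (1 : ℝ) ≤ ψ := by exact_mod_cast h.ψ1
  have hψth : (ψ : ℝ) ≤ th := by exact_mod_cast h.ψth
  have hGl : (1 : ℝ) ≤ P.Gl := by exact_mod_cast h.Gl_pos
  have hq : (ψ : ℝ) / th ≤ 1 := by rw [div_le_one (by positivity)]; exact hψth
  have hq0 : (1 : ℝ) / th ≤ ψ / th := div_le_div_of_nonneg_right hψ (by positivity)
  have he : (ψ : ℝ) / (4000 * th) = ψ / th / 4000 := by field_simp
  have hl := (ln_pos h.D hA r1 r3).2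
  obtain ⟨s1, s2⟩ := (near_of_int h hA hr hx).stab h.D hA r1 r3 (by rw [he]; linarith)
  obtain ⟨l1, l2, -, -⟩ := lI_spec h hA hr
  have g1 := (gI_spec h hA hr).1
  rw [he] at s1 s2
  refine ⟨hl, l1, l2, s2.trans (by nlinarith), ?_⟩
  have hGg : (P.Gg : ℝ) = 40 * th * P.Gl := by rw [h.Gg]; push_cast; ring
  have g2 : |gr P A r - gI P A r / P.Gg| ≤ 1 / th / 2000 * ln P A r := by
    have : gr P A r - gI P A r / P.Gg = -((gI P A r - P.Gg * gr P A r) / P.Gg) := by
      rw [hGg]; field_simp; ring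
    rw [this, abs_neg, abs_div, abs_of_pos (show (0 : ℝ) < P.Gg by rw [hGg]; positivity),
      div_le_iff₀ (by rw [hGg]; positivity)]
    refine g1.trans (le_of_eq ?_)
    rw [hGg]; field_simp; ring
  calc _ ≤ |gr P A x - gr P A r| + |gr P A r - gI P A r / P.Gg| := abs_sub_le _ _ _
    _ ≤ _ := by nlinarith

theorem Link.quiet {N : Net} {rf : ℕ → ℤ} {G : Gr} (h : Num P B th ψ er κ)
    (L : Link P B er N rf G) (hF : Flat G th) : Quiet P N := by
  obtain ⟨z, hz⟩ := hF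
  have hth : (1 : ℝ) ≤ th := by exact_mod_cast h.ψ1.trans h.ψth
  have hψth : (ψ : ℝ) ≤ th := by exact_mod_cast h.ψth
  have hGl : (1 : ℝ) ≤ P.Gl := by exact_mod_cast h.Gl_pos
  have hq : (ψ : ℝ) / th ≤ 1 := by rw [div_le_one (by positivity)]; exact hψth
  have hGg : (P.Gg : ℝ) = 40 * th * P.Gl := by rw [h.Gg]; push_cast; ring
  have hGg0 : (0 : ℝ) < P.Gg := by rw [hGg]; positivity
  refine ⟨fun v => z v / P.Gg, fun e he => ?_⟩
  obtain ⟨a1, -, a3, a4, a5⟩ := L.2 e he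
  obtain ⟨c0, -, c2, c3, c4⟩ := h.cmp a1 a3 a5
  have k := hz e (L.1 ▸ he)
  rw [a4] at k
  simp only [edI] at k
  have k2 : |(gI P (N.arc e) (rf e) : ℝ) / P.Gg - (z (N.arc e).b / P.Gg - z (N.arc e).a / P.Gg)|
      ≤ 103 / 4000 * ln P (N.arc e) (rf e) := by
    rw [← sub_div, ← sub_div, abs_div, abs_of_pos hGg0, div_le_iff₀ hGg0]
    refine k.trans ((mul_le_mul_of_nonneg_left c2 (by positivity)).trans (le_of_eq ?_))
    rw [hGg]; ring
  have k3 := (abs_le.1 c3).1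
  calc _ ≤ |gr P (N.arc e) (N.X e) - gI P (N.arc e) (rf e) / P.Gg|
        + |(gI P (N.arc e) (rf e) : ℝ) / P.Gg - (z (N.arc e).b / P.Gg - z (N.arc e).a / P.Gg)| :=
        abs_sub_le _ _ _
    _ ≤ _ := by nlinarith

theorem pot_nonneg {N : Net} (h : Num P B th ψ er κ)
    (hN : ∀ e ∈ N.E, B.arc e (N.arc e) ∧ Dom B (N.arc e) (N.X e)) : 0 ≤ pot P B N :=
  sum_nonneg fun e he => bar_nonneg h.D h.s0_pos (hN e he).1 (h.dom_pos (hN e he).2).1
    (h.dom_pos (hN e he).2).2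

theorem Link.drop {N : Net} {rf c : ℕ → ℤ} {G : Gr} (h : Num P B th ψ er κ)
    (L : Link P B er N rf G) (hp : pot P B N ≤ B.F) (hG : Good ψ κ G c) :
    N.Circ c ∧ (∀ e ∈ N.E, Dom B (N.arc e) (N.X e + c e)) ∧
      pot P B (N.add c) + (ψ : ℝ) ^ 2 / (10 ^ 6 * th ^ 2) ≤ pot P B N := by
  obtain ⟨g1, g2, g3⟩ := hG
  rw [L.1] at g2 g3
  have hth : (1 : ℝ) ≤ th := by exact_mod_cast h.ψ1.trans h.ψth
  have hψ : (1 : ℝ) ≤ ψ := by exact_mod_cast h.ψ1
  have hψth : (ψ : ℝ) ≤ th := by exact_mod_cast h.ψth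
  have hGl : (1 : ℝ) ≤ P.Gl := by exact_mod_cast h.Gl_pos
  have hD : (1 : ℝ) ≤ P.D := by exact_mod_cast h.D
  have hGg : (P.Gg : ℝ) = 40 * th * P.Gl := by rw [h.Gg]; push_cast; ring
  set q : ℝ := ψ / th with hq
  have hq1 : q ≤ 1 := by rw [hq, div_le_one (by positivity)]; exact hψth
  have hq0 : 0 < q := by positivity
  set K : ℝ := κ / (P.D * P.Gl) with hK
  have hK1 : K ≤ q / 4000 := by
    have : (4000 : ℝ) * th * κ ≤ P.D * P.Gl * ψ := by exact_mod_cast h.κ1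
    rw [hK, hq, div_div, div_le_div_iff₀ (by positivity) (by positivity)]; linarith
  have hK2 : q / 8000 ≤ K := by
    have : (P.D : ℝ) * P.Gl * ψ ≤ 8000 * th * κ := by exact_mod_cast h.κ2
    rw [hK, hq, div_div, div_le_div_iff₀ (by positivity) (by positivity)]; linarith
  -- weighted size with the reference lengths
  set u : ℕ → ℝ := fun e => |(c e : ℝ)| / P.D * ln P (N.arc e) (rf e) with hu
  set t : ℕ → ℝ := fun e => |(c e : ℝ)| / P.D * ln P (N.arc e) (N.X e) with ht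
  have cmp := fun e (he : e ∈ N.E) => h.cmp (L.2 e he).1 (L.2 e he).2.2.1 (L.2 e he).2.2.2.2
  have su : ∑ e ∈ N.E, u e ≤ K := by
    have g2' : ∑ e ∈ N.E, |(c e : ℝ)| * (lI P (N.arc e) (rf e) : ℝ) ≤ κ := by
      have : ((∑ e ∈ N.E, (c e).natAbs * (G.ed e).l : ℕ) : ℝ) ≤ κ := by exact_mod_cast g2
      rw [Nat.cast_sum] at this
      refine le_trans (le_of_eq (sum_congr rfl fun e he => ?_)) this
      rw [(L.2 e he).2.2.2.1]
      simp [edI]
    rw [hK, le_div_iff₀ (by positivity), sum_mul]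
    refine le_trans (sum_le_sum fun e he => ?_) g2'
    have := mul_le_mul_of_nonneg_left (cmp e he).2.1 (abs_nonneg (c e : ℝ))
    refine le_trans (le_of_eq ?_) this
    simp only [hu]; field_simp
  have tu : ∀ e ∈ N.E, 0 ≤ t e ∧ t e ≤ 1001 / 1000 * u e := fun e he => by
    obtain ⟨c0, -, -, c3, -⟩ := cmp e he
    obtain ⟨k1, k2⟩ := abs_le.1 c3
    have w : 0 ≤ |(c e : ℝ)| / P.D := by positivity
    simp only [ht, hu]
    constructor <;> nlinarith
  have st : ∑ e ∈ N.E, t e ≤ 1001 / 1000 * K := by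
    refine (sum_le_sum fun e he => (tu e he).2).trans ?_
    rw [← mul_sum]; linarith
  have te : ∀ e ∈ N.E, t e ≤ 1001 / 1000 * K := fun e he =>
    (single_le_sum (fun e he => (tu e he).1) he).trans st
  have bs := fun e (he : e ∈ N.E) => bar_step (c := c e) h.D h.s0_pos (L.2 e he).1
    (h.dom_pos (L.2 e he).2.1).1 (h.dom_pos (L.2 e he).2.1).2 ((te e he).trans (by linarith))
  -- the linear term
  have lin : ∑ e ∈ N.E, (gI P (N.arc e) (rf e) : ℝ) / P.Gg * (c e / P.D) ≤ -(q * K / 80) := by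
    have : ((2 * ∑ e ∈ N.E, c e * (G.ed e).g + ψ * κ : ℤ) : ℝ) ≤ 0 := by exact_mod_cast g3
    push_cast at this
    have e1 : ∑ e ∈ N.E, (gI P (N.arc e) (rf e) : ℝ) / P.Gg * (c e / P.D)
        = (∑ e ∈ N.E, (c e : ℝ) * (G.ed e).g) / (P.Gg * P.D) := by
      rw [sum_div]
      refine sum_congr rfl fun e he => ?_
      rw [(L.2 e he).2.2.2.1]
      simp only [edI]; rw [hGg]; field_simp
    have e2 : -(q * K / 80) = -(ψ * κ / 2) / (P.Gg * P.D) := by
      rw [hq, hK, hGg]; field_simp; ring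
    rw [e1, e2]
    exact div_le_div_of_nonneg_right (by linarith) (by rw [hGg]; positivity)
  have key : pot P B (N.add c) ≤ pot P B N - q * K / 80 + 3 / 2000 * q * K
      + 4 * (1001 / 1000 * K) ^ 2 := by
    have e1 : ∀ e ∈ N.E, bar P B (N.arc e) (N.X e + c e) ≤ bar P B (N.arc e) (N.X e)
        + (gI P (N.arc e) (rf e) : ℝ) / P.Gg * (c e / P.D) + 3 / 2000 * q * u e
        + 4 * (1001 / 1000 * K) * t e := fun e he => by
      have b := (bs e he).2.2
      have c4 := (cmp e he).2.2.2.2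
      have d1 : (gr P (N.arc e) (N.X e) - gI P (N.arc e) (rf e) / P.Gg) * (c e / P.D)
          ≤ 3 / 2000 * q * u e := by
        refine (le_abs_self _).trans ?_
        rw [abs_mul, abs_div (c e : ℝ), abs_of_pos (show (0 : ℝ) < P.D by positivity)]
        refine (mul_le_mul_of_nonneg_right c4 (by positivity)).trans (le_of_eq ?_)
        simp only [hu]; ring
      have d2 : t e ^ 2 ≤ 1001 / 1000 * K * t e := by
        rw [sq]; exact mul_le_mul_of_nonneg_right (te e he) (tu e he).1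
      change _ ≤ _ + _ + 4 * t e ^ 2 at b
      linarith
    have e2 := sum_le_sum e1
    simp only [sum_add_distrib, ← mul_sum] at e2
    have hK0 : 0 ≤ K := by positivity
    have e3 : 3 / 2000 * q * ∑ e ∈ N.E, u e ≤ 3 / 2000 * q * K :=
      mul_le_mul_of_nonneg_left su (by positivity)
    have e4 : 4 * (1001 / 1000 * K) * ∑ e ∈ N.E, t e ≤ 4 * (1001 / 1000 * K) * (1001 / 1000 * K) :=
      mul_le_mul_of_nonneg_left st (by positivity)
    unfold pot
    simp only [Net.add]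
    nlinarith
  have fin : pot P B (N.add c) + (ψ : ℝ) ^ 2 / (10 ^ 6 * th ^ 2) ≤ pot P B N := by
    have : (ψ : ℝ) ^ 2 / (10 ^ 6 * th ^ 2) = q ^ 2 / 10 ^ 6 := by rw [hq]; field_simp
    rw [this]
    nlinarith
  refine ⟨fun z => ?_, fun e he => ?_, fin⟩
  · rw [← g1 z, L.1]
    refine sum_congr rfl fun e he => ?_
    rw [dz, (L.2 e he).2.2.2.1]; rfl
  · refine dom_of_bar_le h (L.2 e he).1 (bs e he).1 (bs e he).2.1 ?_
    have p1 : bar P B (N.arc e) (N.X e + c e) ≤ pot P B (N.add c) :=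
      single_le_sum (f := fun e => bar P B (N.arc e) (N.X e + c e))
        (fun e he => bar_nonneg h.D h.s0_pos (L.2 e he).1 (bs e he).1 (bs e he).2.1) he
    have : 0 ≤ (ψ : ℝ) ^ 2 / (10 ^ 6 * th ^ 2) := by positivity
    linarith

end Crest.Agent.N325.Ip
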