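import Crest.Agent.N325.Ip.Rel

/-!
# Row 325 (helper74): the floor lemma (definition-free form)

Nodes `H` (one capped out-arc, a ghost in-arc from the ground), nodes `C` (one capped in-arc, a sink
arc to the ground).  In a quiet conserving state the duals are bounded, hence all slacks are large.
-/

set_option autoImplicit false
open Finset

namespace Crest.Agent.N325.Ip

open Crest.Agent.N325.Tw Crest.Agent.N325.Ipm

/-- the shape of the network; `k` bounds the degrees, `U` the small capacities (units) -/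
structure FS (P : Pm) (B : Bn) (N : Net) (H C : ℕ → Prop) (k U : ℕ) : Prop where
  arc : ∀ e ∈ N.E, B.arc e (N.arc e) ∧ (N.arc e).o1 = 0 ∧ 0 < N.X e ∧ N.X e < (N.arc e).o3 ∧
    2 * P.D ≤ (N.arc e).o3
  ends : ∀ e ∈ N.E, ((N.arc e).a = 0 ∨ H (N.arc e).a ∨ C (N.arc e).a) ∧
    ((N.arc e).b = 0 ∨ H (N.arc e).b ∨ C (N.arc e).b)
  gh : ∀ v, H v → ∃ e ∈ N.E, (N.arc e).a = 0 ∧ (N.arc e).b = v ∧ U + P.D ≤ (N.arc e).o3
  hout : ∀ v, H v → ∃ e ∈ N.E, (N.arc e).a = v ∧ (N.arc e).o3 ≤ U ∧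
    ((N.arc e).b = 0 ∨ C (N.arc e).b) ∧ ∀ e' ∈ N.E, (N.arc e').a = v → e' = e
  hin : ∀ v, H v → (N.E.filter fun e => (N.arc e).b = v).card ≤ k ∧
    ∀ e ∈ N.E, (N.arc e).b = v → (N.arc e).a = 0 ∨ C (N.arc e).a
  sk : ∀ c, C c → ∃ e ∈ N.E, (N.arc e).a = c ∧ (N.arc e).b = 0 ∧ U + P.D ≤ (N.arc e).o3
  cin : ∀ c, C c → ∃ e ∈ N.E, (N.arc e).b = c ∧ (N.arc e).o3 ≤ U ∧
    ((N.arc e).a = 0 ∨ H (N.arc e).a) ∧ ∀ e' ∈ N.E, (N.arc e').b = c → e' = e
  cout : ∀ c, C c → (N.E.filter fun e => (N.arc e).a = c).card ≤ k ∧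
    ∀ e ∈ N.E, (N.arc e).a = c → (N.arc e).b = 0 ∨ H (N.arc e).b

variable {P : Pm} {B : Bn} {N : Net} {H C : ℕ → Prop} {k U : ℕ} {y : ℕ → ℝ}

theorem Net.Circ.in_out {c : ℕ → ℤ} (h : N.Circ c) (v : ℕ) :
    ∑ e ∈ N.E.filter (fun e => (N.arc e).b = v), c e =
      ∑ e ∈ N.E.filter (fun e => (N.arc e).a = v), c e := by
  have := h fun w => if w = v then 1 else 0
  simp only [mul_sub, mul_ite, mul_one, mul_zero, sum_sub_distrib] at this
  rw [sum_filter, sum_filter]; linarith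

theorem sum_filter_unique {s : Finset ℕ} {p : ℕ → Prop} [DecidablePred p] {f : ℕ → ℤ} {e : ℕ}
    (he : e ∈ s) (hp : p e) (hu : ∀ e' ∈ s, p e' → e' = e) : ∑ i ∈ s.filter p, f i = f e := by
  rw [show s.filter p = {e} from eq_singleton_iff_unique_mem.2
    ⟨mem_filter.2 ⟨he, hp⟩, fun x hx => hu x (mem_filter.1 hx).1 (mem_filter.1 hx).2⟩, sum_singleton]

namespace FS

/-- the arcs into a node `H` carry at most the flow of its out-arc -/
theorem in_le (S : FS P B N H C k U) (hc : N.Circ N.X) {e : ℕ} (he : e ∈ N.E)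
    (h : H (N.arc e).b) : N.X e ≤ U := by
  obtain ⟨o, ho, a, u, -, q⟩ := S.hout _ h
  have e1 := hc.in_out (N.arc e).b
  rw [sum_filter_unique ho a q] at e1
  have : N.X e ≤ ∑ i ∈ N.E.filter (fun i => (N.arc i).b = (N.arc e).b), N.X i :=
    single_le_sum (fun i hi => (S.arc i (mem_filter.1 hi).1).2.2.1.le) (mem_filter.2 ⟨he, rfl⟩)
  have := (S.arc o ho).2.2.2.1
  omega

/-- the arcs out of a node `C` carry at most the flow of its in-arc -/
theorem out_le (S : FS P B N H C k U) (hc : N.Circ N.X) {e : ℕ} (he : e ∈ N.E)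
    (h : C (N.arc e).a) : N.X e ≤ U := by
  obtain ⟨o, ho, a, u, -, q⟩ := S.cin _ h
  have e1 := hc.in_out (N.arc e).a
  rw [sum_filter_unique ho a q] at e1
  have : N.X e ≤ ∑ i ∈ N.E.filter (fun i => (N.arc i).a = (N.arc e).a), N.X i :=
    single_le_sum (fun i hi => (S.arc i (mem_filter.1 hi).1).2.2.1.le) (mem_filter.2 ⟨he, rfl⟩)
  have := (S.arc o ho).2.2.2.1
  omega

section
variable (S : FS P B N H C k U) (hc : N.Circ N.X) (hD : 1 ≤ P.D) (hs0 : 1 ≤ P.s0)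
  (hk : 1 ≤ k) (hs : k * P.s0 ≤ P.D) (y0 : y 0 = 0)
  (hy : ∀ e ∈ N.E, Qt P (N.arc e) (N.X e) (y (N.arc e).b - y (N.arc e).a))
include S hD hs0 hk hs hy

/-- an arc with a large upper slack -/
theorem rise_le {e : ℕ} (he : e ∈ N.E) (h : N.X e + P.D ≤ (N.arc e).o3) :
    y (N.arc e).b - y (N.arc e).a ≤ B.pb + 11 / 10 * B.cb := by
  obtain ⟨hA, o1, x0, -, -⟩ := S.arc e he
  have hD' : (0 : ℝ) < P.D := by exact_mod_cast hD
  have z : (P.s0 : ℝ) ≤ P.D := by exact_mod_cast (Nat.le_mul_of_pos_left _ hk).trans hs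
  have t := (hy e he).le_of hD hs0 hA (by omega) z (by
    have : ((N.X e : ℤ) : ℝ) + P.D ≤ (N.arc e).o3 := by exact_mod_cast h
    linarith)
  rw [div_self hD'.ne', mul_one] at t
  have p : ((N.arc e).p : ℝ) ≤ B.pb := by exact_mod_cast hA.2.2.2.1
  have c : ((N.arc e).c3 : ℝ) ≤ B.cb := by
    exact_mod_cast (Nat.le_add_left _ _).trans hA.2.2.2.2.2.2.1
  linarith

/-- an arc with a large flow -/
theorem fall_le {e : ℕ} (he : e ∈ N.E) (h : (P.D : ℤ) ≤ k * N.X e) :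
    y (N.arc e).a - y (N.arc e).b ≤ 11 / 10 * (B.cb * k) := by
  obtain ⟨hA, o1, x0, x1, -⟩ := S.arc e he
  have hD' : (0 : ℝ) < P.D := by exact_mod_cast hD
  have k0 : (0 : ℝ) < k := by exact_mod_cast hk
  have z : (P.s0 : ℝ) ≤ P.D / k := by
    rw [le_div_iff₀ k0, mul_comm]; exact_mod_cast hs
  have t := (hy e he).ge_of hD hs0 hA (by omega) z (by
    rw [o1, div_le_iff₀ k0, Nat.cast_zero, add_zero, mul_comm]; exact_mod_cast h)
  rw [show (P.D : ℝ) / (P.D / k) = k by field_simp] at t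
  have p := Nat.cast_nonneg (α := ℝ) (N.arc e).p
  have c : ((N.arc e).c1 : ℝ) + (N.arc e).c2 ≤ B.cb := by
    exact_mod_cast (Nat.le_add_right _ _).trans hA.2.2.2.2.2.2.1
  have := mul_le_mul_of_nonneg_right c k0.le
  linarith

include hc y0

theorem y_H_le {v : ℕ} (h : H v) : y v ≤ B.pb + 11 / 10 * B.cb := by
  obtain ⟨e, he, a, b, u⟩ := S.gh v h
  have := S.in_le hc he (b ▸ h)
  have t := S.rise_le hD hs0 hk hs hy he (by omega)
  rwa [a, b, y0, sub_zero] at t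

theorem le_y_C {c : ℕ} (h : C c) : -(B.pb + 11 / 10 * B.cb) ≤ y c := by
  obtain ⟨e, he, a, b, u⟩ := S.sk c h
  have := S.out_le hc he (a ▸ h)
  have t := S.rise_le hD hs0 hk hs hy he (by omega)
  rw [a, b, y0] at t; linarith

theorem y_C_le {c : ℕ} (h : C c) : y c ≤ 2 * B.pb + 3 * (B.cb * k) := by
  have k1 : (1 : ℝ) ≤ k := by exact_mod_cast hk
  have c0 := Nat.cast_nonneg (α := ℝ) B.cb; have p0 := Nat.cast_nonneg (α := ℝ) B.pb
  have ck : (B.cb : ℝ) ≤ B.cb * k := le_mul_of_one_le_right c0 k1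
  have hH : ∀ v, v = 0 ∨ H v → y v ≤ B.pb + 11 / 10 * B.cb := by
    rintro v (rfl | hv)
    · rw [y0]; positivity
    · exact S.y_H_le hc hD hs0 hk hs y0 hy hv
  obtain ⟨e, he, b, -, a, q⟩ := S.cin c h
  by_cases hx : N.X e + P.D ≤ (N.arc e).o3
  · have t := S.rise_le hD hs0 hk hs hy he hx
    have := hH _ a
    rw [b] at t; linarith
  · have e1 := hc.in_out c
    rw [sum_filter_unique he b q] at e1
    have := (S.arc e he).2.2.2.2
    obtain ⟨o, ho, hx⟩ := exists_ge_of_sum (T := P.D) (f := N.X) (S.cout c h).1 (by omega) (by omega)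
    obtain ⟨ho, a'⟩ := mem_filter.1 ho
    have t := S.fall_le hD hs0 hk hs hy ho hx
    have := hH _ ((S.cout c h).2 o ho a')
    rw [a'] at t; linarith

theorem le_y_H {v : ℕ} (h : H v) : -(2 * B.pb + 3 * (B.cb * k)) ≤ y v := by
  have k1 : (1 : ℝ) ≤ k := by exact_mod_cast hk
  have c0 := Nat.cast_nonneg (α := ℝ) B.cb; have p0 := Nat.cast_nonneg (α := ℝ) B.pb
  have ck : (B.cb : ℝ) ≤ B.cb * k := le_mul_of_one_le_right c0 k1
  have hC : ∀ v, v = 0 ∨ C v → -(B.pb + 11 / 10 * B.cb) ≤ y v := by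
    rintro v (rfl | hv)
    · rw [y0]; linarith
    · exact S.le_y_C hc hD hs0 hk hs y0 hy hv
  obtain ⟨e, he, a, -, b, q⟩ := S.hout v h
  by_cases hx : N.X e + P.D ≤ (N.arc e).o3
  · have t := S.rise_le hD hs0 hk hs hy he hx
    have := hC _ b
    rw [a] at t; linarith
  · have e1 := hc.in_out v
    rw [sum_filter_unique he a q] at e1
    have := (S.arc e he).2.2.2.2
    obtain ⟨o, ho, hx⟩ := exists_ge_of_sum (T := P.D) (f := N.X) (S.hin v h).1 (by omega) (by omega)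
    obtain ⟨ho, b'⟩ := mem_filter.1 ho
    have t := S.fall_le hD hs0 hk hs hy ho hx
    have := hC _ ((S.hin v h).2 o ho b')
    rw [b'] at t; linarith

theorem abs_y_le {v : ℕ} (h : v = 0 ∨ H v ∨ C v) : |y v| ≤ 2 * B.pb + 3 * (B.cb * k) := by
  have k1 : (1 : ℝ) ≤ k := by exact_mod_cast hk
  have c0 := Nat.cast_nonneg (α := ℝ) B.cb; have p0 := Nat.cast_nonneg (α := ℝ) B.pb
  have ck : (B.cb : ℝ) ≤ B.cb * k := le_mul_of_one_le_right c0 k1
  rw [abs_le]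
  rcases h with rfl | h | h
  · rw [y0]; constructor <;> linarith
  · exact ⟨S.le_y_H hc hD hs0 hk hs y0 hy h, by linarith [S.y_H_le hc hD hs0 hk hs y0 hy h]⟩
  · exact ⟨by linarith [S.le_y_C hc hD hs0 hk hs y0 hy h], S.y_C_le hc hD hs0 hk hs y0 hy h⟩

end

/-- **the floor lemma** -/
theorem floor (S : FS P B N H C k U) (hc : N.Circ N.X) (hD : 1 ≤ P.D) (hs0 : 1 ≤ P.s0)
    (hk : 2 ≤ k) (hs : k * P.s0 ≤ P.D) (hq : Quiet P N) {lam : ℕ}
    (hl : lam * (10 * B.pb + 18 * (B.cb * k)) ≤ P.D) {e : ℕ} (he : e ∈ N.E) :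
    (lam : ℤ) ≤ N.X e ∧ (lam : ℤ) ≤ (N.arc e).o3 - N.X e := by
  obtain ⟨y, y0, hy⟩ := hq.zero
  have k1 : 1 ≤ k := by omega
  obtain ⟨hA, o1, x0, x1, w⟩ := S.arc e he
  have ha := S.abs_y_le hc hD hs0 k1 hs y0 hy (S.ends e he).1
  have hb := S.abs_y_le hc hD hs0 k1 hs y0 hy (S.ends e he).2
  have := (hy e he).floor (Y := 2 * (2 * B.pb + 3 * (B.cb * k))) (lam := lam) hD hs0 hA (by omega)
    (by omega) ((abs_sub _ _).trans (by linarith)) (by omega)
    ((Nat.mul_le_mul_right _ hk).trans hs) (by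
      have h1 : (lam : ℝ) * (10 * B.pb + 18 * (B.cb * k)) ≤ P.D := by exact_mod_cast hl
      have k1 : (1 : ℝ) ≤ k := by exact_mod_cast k1
      have ck : (B.cb : ℝ) ≤ B.cb * k := le_mul_of_one_le_right (Nat.cast_nonneg _) k1
      have := mul_le_mul_of_nonneg_left ck (Nat.cast_nonneg (α := ℝ) lam)
      nlinarith)
  rw [o1] at this; simpa using this

end FS

end Crest.Agent.N325.Ip
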