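import Crest.Agent.N325.Ip.Defs
import Crest.Agent.N325.Tw.BotImpl

/-! Row 325 (helper37): the programs of the layer `Ip` are implementable. -/

set_option autoImplicit false

namespace Crest.Agent.N325.Ip

open Crest.Agent.N325.Tw

instance : Rp Arc := Rp.via fun A => (A.a, A.b, A.p, A.c1, A.o1, A.c2, A.o2, A.c3, A.o3)
instance : Cst Arc := Cst.via _
instance : Rp Pm := Rp.via fun P => (P.D, P.s0, P.Gg, P.Gl, P.thr, P.fu)
instance {T : Type} [Rp T] : Rp (St T) := Rp.via fun s => (s.tw, s.arc, s.kn, s.rf, s.ll, s.log)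

variable {α T : Type} [Rp α] [Rp T] {σ : Bool}

section fields
variable {A : α → Arc} {P : α → Pm} {s : α → St T}
@[fun_prop] theorem Arc.pu_a (h : Pu σ A) : Pu σ fun x => (A x).a := by impl
@[fun_prop] theorem Arc.pu_b (h : Pu σ A) : Pu σ fun x => (A x).b := by impl
@[fun_prop] theorem Arc.pu_p (h : Pu σ A) : Pu σ fun x => (A x).p := by impl
@[fun_prop] theorem Arc.pu_c1 (h : Pu σ A) : Pu σ fun x => (A x).c1 := by impl
@[fun_prop] theorem Arc.pu_o1 (h : Pu σ A) : Pu σ fun x => (A x).o1 := by impl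
@[fun_prop] theorem Arc.pu_c2 (h : Pu σ A) : Pu σ fun x => (A x).c2 := by impl
@[fun_prop] theorem Arc.pu_o2 (h : Pu σ A) : Pu σ fun x => (A x).o2 := by impl
@[fun_prop] theorem Arc.pu_c3 (h : Pu σ A) : Pu σ fun x => (A x).c3 := by impl
@[fun_prop] theorem Arc.pu_o3 (h : Pu σ A) : Pu σ fun x => (A x).o3 := by impl
@[fun_prop] theorem Pm.pu_D (h : Pu σ P) : Pu σ fun x => (P x).D := by impl
@[fun_prop] theorem Pm.pu_s0 (h : Pu σ P) : Pu σ fun x => (P x).s0 := by impl
@[fun_prop] theorem Pm.pu_Gg (h : Pu σ P) : Pu σ fun x => (P x).Gg := by impl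
@[fun_prop] theorem Pm.pu_Gl (h : Pu σ P) : Pu σ fun x => (P x).Gl := by impl
@[fun_prop] theorem Pm.pu_thr (h : Pu σ P) : Pu σ fun x => (P x).thr := by impl
@[fun_prop] theorem Pm.pu_fu (h : Pu σ P) : Pu σ fun x => (P x).fu := by impl
@[fun_prop] theorem St.pu_tw (h : Pu σ s) : Pu σ fun x => (s x).tw := by impl
@[fun_prop] theorem St.pu_arc (h : Pu σ s) : Pu σ fun x => (s x).arc := by impl
@[fun_prop] theorem St.pu_kn (h : Pu σ s) : Pu σ fun x => (s x).kn := by impl
@[fun_prop] theorem St.pu_rf (h : Pu σ s) : Pu σ fun x => (s x).rf := by impl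
@[fun_prop] theorem St.pu_ll (h : Pu σ s) : Pu σ fun x => (s x).ll := by impl
@[fun_prop] theorem St.pu_log (h : Pu σ s) : Pu σ fun x => (s x).log := by impl
end fields

@[fun_prop] theorem pu_wI {P : α → Pm} {G c s : α → ℕ} (hP : Pu false P) (hG : Pu false G)
    (hc : Pu false c) (hs : Pu false s) : Pu false fun a => wI (P a) (G a) (c a) (s a) := by
  unfold wI; impl

@[fun_prop] theorem pu_lI {P : α → Pm} {A : α → Arc} {x : α → ℤ} (hP : Pu false P)
    (hA : Pu false A) (hx : Pu false x) : Pu false fun a => lI (P a) (A a) (x a) := by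
  unfold lI; impl

@[fun_prop] theorem pu_gI {P : α → Pm} {A : α → Arc} {x : α → ℤ} (hP : Pu false P)
    (hA : Pu false A) (hx : Pu false x) : Pu false fun a => gI (P a) (A a) (x a) := by
  unfold gI; impl

@[fun_prop] theorem impl_app1 {x : α → ℕ × ℤ} {u : α → Arr ℤ × List ℕ} (hx : Pu true x)
    (hu : Pu true u) : Impl fun a => app1 (x a) (u a) := by
  unfold app1; impl

variable {run : α → Cmd × T → R (T × Rep × Bool)} {P : α → Pm} {s : α → St T} {e : α → ℕ}

@[fun_prop] theorem impl_del0 {C : α → List ℕ} (hr : Impl fun p : α × Cmd × T => run p.1 p.2)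
    (hs : Pu true s) (hC : Pu true C) (he : Pu true e) :
    Impl fun a => del0 (run a) (s a) (C a) (e a) := by
  unfold del0; impl

@[fun_prop] theorem impl_ins0 {C : α → List ℕ} {A : α → Arc} {x : α → ℤ}
    (hr : Impl fun p : α × Cmd × T => run p.1 p.2) (hP : Pu true P)
    (hs : Pu true s) (hC : Pu true C) (he : Pu true e) (hA : Pu true A) (hx : Pu true x) :
    Impl fun a => ins0 (run a) (P a) (s a) (C a) (e a) (A a) (x a) := by
  unfold ins0; impl

@[fun_prop] theorem impl_chk {u : α → St T × List ℕ}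
    (hr : Impl fun p : α × Cmd × T => run p.1 p.2) (hP : Pu true P) (hu : Pu true u) :
    Impl fun a => chk (run a) (P a) (u a) := by
  unfold chk; impl

@[fun_prop] theorem impl_proc {u : α → St T × List ℕ}
    (hr : Impl fun p : α × Cmd × T => run p.1 p.2) (hP : Pu true P) (hu : Pu true u) :
    Impl fun a => proc (run a) (P a) (u a) := by
  unfold proc; impl

@[fun_prop] theorem impl_init {t : α → T} (hr : Impl fun p : α × Cmd × T => run p.1 p.2)
    (ht : Pu true t) : Impl fun a => init (run a) (t a) := by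
  unfold init; impl

@[fun_prop] theorem impl_ins {A : α → Arc} {x : α → ℤ}
    (hr : Impl fun p : α × Cmd × T => run p.1 p.2) (hP : Pu true P)
    (hs : Pu true s) (he : Pu true e) (hA : Pu true A) (hx : Pu true x) :
    Impl fun a => ins (run a) (P a) (s a) (e a) (A a) (x a) := by
  unfold ins; impl

@[fun_prop] theorem impl_del (hr : Impl fun p : α × Cmd × T => run p.1 p.2) (hP : Pu true P)
    (hs : Pu true s) (he : Pu true e) : Impl fun a => del (run a) (P a) (s a) (e a) := by
  unfold del; impl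

@[fun_prop] theorem impl_get (hr : Impl fun p : α × Cmd × T => run p.1 p.2) (hP : Pu true P)
    (hs : Pu true s) (he : Pu true e) : Impl fun a => get (run a) (P a) (s a) (e a) := by
  unfold get; impl

@[fun_prop] theorem impl_step1 {u : α → St T × Bool}
    (hr : Impl fun p : α × Cmd × T => run p.1 p.2) (hP : Pu true P) (hu : Pu true u) :
    Impl fun a => step1 (run a) (P a) (u a) := by
  unfold step1; impl

@[fun_prop] theorem impl_qui (hr : Impl fun p : α × Cmd × T => run p.1 p.2) (hP : Pu true P)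
    (hs : Pu true s) : Impl fun a => qui (run a) (P a) (s a) := by
  unfold qui; impl

end Crest.Agent.N325.Ip
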