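import Crest.Agent.N325.Ip.Drop

/-! # Row 325 (helper62): invariant and potential of the primal centre, booking of the reports -/

set_option autoImplicit false
open Finset

namespace Crest.Agent.N325.Ip

open Crest.Agent.N325.Tw Crest.Agent.N325.Ipm

/-- the side conditions on sizes and times -/
structure Tim (g : Gl) (θ : ℕ) (k : TC) (P : Pm) (B : Bn) (c : IC) : Prop where
  θ1 : 1 ≤ θ
  cc : 2 ≤ k.cc
  m : B.m ≤ k.c.m
  mnb : B.m ≤ k.c.nb
  nb : B.nb ≤ k.c.nb
  lb : lbI P B ≤ k.c.lb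
  gb : gbI P B ≤ k.c.gb
  wt : θ * (2 * k.AU + 4 + c.cl) ≤ k.wt * P.thr
  X1 : lbI P B ≤ g.X
  X2 : gbI P B ≤ g.X
  X3 : B.Mu + k.er + k.rp * (B.F + 2 * (k.AU + k.AS) + 10) ≤ g.X
  fu : B.F + k.AU + k.AS + 10 < P.fu
  AR : k.AR + 1 ≤ c.AR
  AU : k.AU + c.cl + 4 ≤ c.AU
  AQ : k.AS + 6 ≤ c.AQ
  AP : (k.AS + 5) * (10 ^ 6 * k.th ^ 2) ≤ c.AP * k.ψ ^ 2

/-- a while loop whose elapsed time is bounded by the invariant -/
theorem sp_whileT {σ : Type} {g : Gl} {c : σ → Bool} {f : σ → R σ} (I : σ → ℕ → Prop) (Tm : ℕ)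
    (hb : ∀ s t, I s t → c s = true → t ≤ Tm)
    (h : ∀ s t, I s t → c s = true → Sp g (f s) fun s' u => I s' (t + 1 + u))
    {n : ℕ} {s : σ} {t : ℕ} (h0 : I s t) (hn : Tm < t + n) :
    Sp g (whileF c f n s) fun s' u => c s' = false ∧ ∃ u', u = u' + 1 ∧ I s' (t + u') := by
  induction n generalizing s t with
  | zero =>
    refine ⟨Nat.zero_le _, ?_, 0, rfl, h0⟩
    by_contra e
    have := hb s t h0 (by simpa using e)
    omega
  | succ n ih =>
    refine ⟨Nat.zero_le _, ?_⟩
    by_cases e : c s = true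
    · rw [if_pos e]
      refine (h s t h0 e).bind fun s' u k => (ih k (by omega)).mono ?_
      rintro s'' _ ⟨a, u', rfl, k'⟩
      exact ⟨a, 1 + u + u', by omega, by convert k' using 1; omega⟩
    · rw [if_neg e]
      exact ⟨Bool.eq_false_iff.2 e, 0, rfl, h0⟩

/-! ## reports -/

@[simp] theorem rsum_nil (e : ℕ) : rsum [] e = 0 := rfl

theorem rsum_cons (x : ℕ × ℤ) (r : Rep) (e : ℕ) :
    rsum (x :: r) e = (if x.1 = e then x.2 else 0) + rsum r e := by
  simp [rsum]

theorem rsum_eq_zero {r : Rep} {e : ℕ} (h : e ∉ r.map Prod.fst) : rsum r e = 0 := by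
  induction r with
  | nil => rfl
  | cons x r ih =>
    rw [List.map_cons, List.mem_cons, not_or] at h
    rw [rsum_cons, ih h.2, if_neg (Ne.symm h.1), add_zero]

/-- total size of the reports -/
def rabs (r : Rep) : ℕ := (r.map fun x => x.2.natAbs).sum

theorem rabs_le {E : Finset ℕ} {D : ℕ} {r : Rep} (h : RepOk E D r) : rabs r ≤ D * r.length := by
  induction r with
  | nil => simp [rabs]
  | cons x r ih =>
    have h1 := (h x (List.mem_cons_self)).2
    have h2 := ih fun y hy => h y (List.mem_cons_of_mem _ hy)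
    simp only [rabs, List.map_cons, List.sum_cons, List.length_cons] at h2 ⊢
    rw [Nat.mul_succ]; omega

theorem sp_app {g : Gl} (r : Rep) (kn : Arr ℤ) (C : List ℕ)
    (h : ∀ x ∈ r, (kn.get x.1).natAbs + rabs r ≤ g.X) :
    Sp g (foldL app1 r (kn, C)) fun u t => (∀ e, u.1.get e = kn.get e + rsum r e) ∧
      (∀ e, e ∈ u.2 ↔ e ∈ r.map Prod.fst ∨ e ∈ C) ∧ u.2.length = r.length + C.length ∧
      t = r.length + 1 := by
  induction r generalizing kn C with
  | nil => exact ⟨Nat.zero_le _, by simp, by simp, by simp, rfl⟩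
  | cons x r ih =>
    refine ⟨Nat.zero_le _, ?_⟩
    have hx := h x List.mem_cons_self
    have e0 : rabs (x :: r) = x.2.natAbs + rabs r := by simp [rabs]
    simp only [app1, sp_bind, sp_int, sp_pure]
    refine ⟨by omega, (ih (kn.set x.1 (kn.get x.1 + x.2)) (x.1 :: C) ?_).mono ?_⟩
    · intro y hy
      have hy' := h y (List.mem_cons_of_mem _ hy)
      rw [Arr.get_set]
      split_ifs <;> omega
    · rintro u t ⟨h1, h2, h3, h4⟩
      refine ⟨fun e => ?_, fun e => ?_, by simp only [h3, List.length_cons]; omega,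
        by simp only [h4, List.length_cons]; omega⟩
      · rw [h1, rsum_cons, Arr.get_set]
        by_cases he : e = x.1
        · subst he; simp [add_assoc]
        · rw [if_neg he, if_neg (Ne.symm he), zero_add]
      · rw [h2]; simp only [List.mem_cons, List.map_cons]; tauto

/-- weighted distance of the known flows from the reference flows -/
def dev (m : ℕ) (kn rf : ℕ → ℤ) (l : ℕ → ℕ) : ℕ := ∑ e ∈ range m, (kn e - rf e).natAbs * l e

theorem dev_rsum (m : ℕ) (kn rf : ℕ → ℤ) (l : ℕ → ℕ) (r : Rep) :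
    dev m (fun e => kn e + rsum r e) rf l ≤
      dev m kn rf l + (r.map fun x => x.2.natAbs * l x.1).sum := by
  induction r with
  | nil => simp [dev]
  | cons x r ih =>
    rw [List.map_cons, List.sum_cons]
    have h1 : dev m (fun e => kn e + rsum (x :: r) e) rf l ≤
        dev m (fun e => kn e + rsum r e) rf l +
          ∑ e ∈ range m, if x.1 = e then x.2.natAbs * l x.1 else 0 := by
      unfold dev
      rw [← sum_add_distrib]
      refine sum_le_sum fun e _ => ?_
      beta_reduce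
      rw [rsum_cons]
      split_ifs with he
      · subst he
        rw [← add_mul]
        exact Nat.mul_le_mul_right _ (by omega)
      · simp
    have h2 : (∑ e ∈ range m, if x.1 = e then x.2.natAbs * l x.1 else 0) ≤ x.2.natAbs * l x.1 := by
      rw [sum_ite_eq]; split_ifs <;> omega
    omega

theorem dev_erase {m e : ℕ} (he : e < m) (kn rf : ℕ → ℤ) (l : ℕ → ℕ) :
    dev m kn rf (Function.update l e 0) + (kn e - rf e).natAbs * l e = dev m kn rf l := by
  unfold dev
  rw [← sum_erase_add _ _ (mem_range.2 he), ← sum_erase_add _ _ (mem_range.2 he)]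
  simp only [Function.update_self, mul_zero, add_zero]
  congr 1
  exact sum_congr rfl fun e' h => by rw [Function.update_of_ne (ne_of_mem_erase h)]

theorem dev_insert {m e : ℕ} (kn rf : ℕ → ℤ) {l : ℕ → ℕ} (hl : l e = 0) (x : ℤ) (a : ℕ) :
    dev m (Function.update kn e x) (Function.update rf e x) (Function.update l e a) =
      dev m kn rf l := by
  unfold dev
  refine sum_congr rfl fun e' _ => ?_
  by_cases h : e' = e
  · subst h; simp [hl]
  · simp [Function.update_of_ne h]

theorem sum_le_rw {ed : ℕ → Ed} {l : ℕ → ℕ} {r : Rep} (h : ∀ x ∈ r, l x.1 ≤ (ed x.1).l) :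
    (r.map fun x => x.2.natAbs * l x.1).sum ≤ rw ed r :=
  List.sum_le_sum fun x hx => Nat.mul_le_mul_left _ (h x hx)

/-! ## invariant -/

section inv
variable {T : Type} (It : T → Gr → (ℕ → ℤ) → Prop) (Ψ : T → ℕ) (k : TC) (P : Pm) (B : Bn)

/-- the facts on one arc; `C` = the arcs that wait for a check -/
structure ArcOk (s : St T) (C : List ℕ) (N : Net) (G : Gr) (f : ℕ → ℤ) (e : ℕ) : Prop where
  arc : s.arc.get e = N.arc e
  bd : B.arc e (N.arc e)
  dx : Dom B (N.arc e) (N.X e)
  dr : Dom B (N.arc e) (s.rf.get e)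
  ed : G.ed e = edI P (N.arc e) (s.rf.get e)
  ll : s.ll.get e = lI P (N.arc e) (s.rf.get e)
  val : N.X e = s.kn.get e + f e
  chk : e ∉ C → (s.kn.get e - s.rf.get e).natAbs * s.ll.get e ≤ P.thr

/-- the working invariant -/
structure Core (s : St T) (C : List ℕ) (N : Net) (G : Gr) (f : ℕ → ℤ) : Prop where
  tw : It s.tw G f
  E : G.E = N.E
  EU : G.E ⊆ G.U
  U : G.U ⊆ range B.m
  ok : ∀ e ∈ N.E, ArcOk P B s C N G f e
  out : ∀ e, e ∉ N.E → s.ll.get e = 0

/-- the working invariant, ghosts hidden -/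
def J (s : St T) (C : List ℕ) (N : Net) : Prop := ∃ G f, Core It P B s C N G f

/-- the potential (times `θ`) -/
def Q (s : St T) : ℕ := Ψ s.tw + k.wt * dev B.m s.kn.get s.rf.get s.ll.get

variable {It Ψ k P B}

theorem J.mono {s : St T} {C C' : List ℕ} {N : Net} (h : J It P B s C N) (hC : ∀ e ∈ C, e ∈ C') :
    J It P B s C' N := by
  obtain ⟨G, f, h⟩ := h
  exact ⟨G, f, h.tw, h.E, h.EU, h.U, fun e he =>
    { h.ok e he with chk := fun hn => (h.ok e he).chk fun hc => hn (hC e hc) }, h.out⟩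

theorem Dom.natAbs_le {e : ℕ} {A : Arc} {x : ℤ} (hA : B.arc e A) (h : Dom B A x) :
    x.natAbs ≤ B.Mu := by
  obtain ⟨-, -, -, -, -, -, -, h1, h2⟩ := hA
  obtain ⟨h3, h4⟩ := h
  omega

variable {g : Gl} {θ th ψ er κ : ℕ} {c : IC}

theorem edI_ok (hN : Num P B th ψ er κ) (hT : Tim g θ k P B c) {e : ℕ} {A : Arc} {x : ℤ}
    (hA : B.arc e A) (hx : Dom B A x) : k.c.ed e (edI P A x) := by
  obtain ⟨-, -, h1, h2⟩ := lI_spec hN hA hx
  have h3 := (gI_spec hN hA hx).2
  have := hT.mnb; have := hT.nb; have := hT.lb; have := hT.gb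
  obtain ⟨h4, h5, h6, -⟩ := hA
  refine ⟨by omega, ?_, ?_, h1, ?_, ?_⟩ <;> simp only [edI] <;> omega

theorem Core.gok (hN : Num P B th ψ er κ) (hT : Tim g θ k P B c) {s : St T} {C : List ℕ} {N : Net}
    {G : Gr} {f : ℕ → ℤ} (h : Core It P B s C N G f) : G.Ok k.c := by
  refine ⟨h.EU, ?_, fun e he => ?_⟩
  · exact ((card_le_card h.U).trans_eq (card_range _)).trans hT.m
  · rw [h.E] at he
    rw [(h.ok e he).ed]
    exact edI_ok hN hT (h.ok e he).bd (h.ok e he).dr

end inv

theorem Net.ins_del {N : Net} {e : ℕ} (he : e ∈ N.E) : (N.del e).ins e (N.arc e) (N.X e) = N := by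
  cases N
  simp only [Net.del, Net.ins, Function.update_eq_self, insert_erase he]

theorem Net.add_add (N : Net) (c c' : ℕ → ℤ) :
    (N.add c).add c' = N.add fun e => c e + c' e := by
  simp only [Net.add, add_assoc]

theorem Net.add_zero (N : Net) : (N.add fun _ => 0) = N := by
  cases N; simp only [Net.add, _root_.add_zero]

theorem Net.Circ.add {N : Net} {c c' : ℕ → ℤ} (h : N.Circ c) (h' : (N.add c).Circ c') :
    N.Circ fun e => c e + c' e := fun z => by
  have h1 := h z
  have h2 := h' z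
  simp only [Net.add] at h2
  simp only [add_mul, sum_add_distrib, h1, h2, _root_.add_zero]

end Crest.Agent.N325.Ip
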