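import Crest.Agent.N325.Ip.Inv

/-! # Row 325 (helper62): raw deletion and insertion, the check loop -/

set_option autoImplicit false
open Finset

namespace Crest.Agent.N325.Ip

open Crest.Agent.N325.Tw Crest.Agent.N325.Ipm

variable {T : Type} {g : Gl} {θ κ : ℕ} {run : Cmd × T → R (T × Rep × Bool)} {k : TC}
  {Sh : T → Prop} {It : T → Gr → (ℕ → ℤ) → Prop} {Ψ : T → ℕ} {P : Pm} {B : Bn} {c : IC}

/-- the bound on the potential inside an operation -/
def F1 (k : TC) (B : Bn) : ℕ := B.F + k.AU + k.AS + 9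

theorem Core.kn_le (hS : TowerSpec g θ κ run k Sh It Ψ) (hN : Num P B k.th k.ψ k.er κ)
    {s : St T} {C : List ℕ} {N : Net} {G : Gr} {f : ℕ → ℤ} (h : Core It P B s C N G f) {e : ℕ}
    (he : e ∈ N.E) : (s.kn.get e).natAbs ≤ B.Mu + k.er := by
  have o := h.ok e he
  have h1 := hS.stale h.tw e (h.E ▸ he)
  have h2 := (lI_spec hN o.bd o.dr).2.2.1
  rw [o.ed] at h1
  have h3 : (f e).natAbs ≤ (f e).natAbs * (edI P (N.arc e) (s.rf.get e)).l :=
    Nat.le_mul_of_pos_right _ h2
  have h4 := o.dx.natAbs_le o.bd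
  have h5 := o.val
  omega

theorem rep_len (hT : Tim g θ k P B c) {a n A z : ℕ} (h : θ * k.cc * n + z ≤ a + θ * A)
    (ha : a ≤ θ * F1 k B) : n ≤ F1 k B + A := by
  have h1 : θ * n ≤ θ * k.cc * n := by
    rw [mul_assoc]
    exact Nat.mul_le_mul_left _ (Nat.le_mul_of_pos_left _ (by have := hT.cc; omega))
  have h2 : θ * n ≤ θ * (F1 k B + A) := by rw [mul_add]; omega
  exact Nat.le_of_mul_le_mul_left h2 hT.θ1

theorem rep_X (hT : Tim g θ k P B c) {E : Finset ℕ} {r : Rep} (hr : RepOk E k.rp r) {A : ℕ}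
    (hA : A ≤ k.AU + k.AS) (hn : r.length ≤ F1 k B + A) : B.Mu + k.er + rabs r ≤ g.X := by
  have h1 := rabs_le hr
  have h2 : k.rp * r.length ≤ k.rp * (B.F + 2 * (k.AU + k.AS) + 10) :=
    Nat.mul_le_mul_left _ (by unfold F1 at hn; omega)
  have := hT.X3
  omega

theorem cc_pay (hT : Tim g θ k P B c) (n : ℕ) : θ * n + θ * n ≤ θ * k.cc * n := by
  have : θ * (2 * n) ≤ θ * (k.cc * n) := Nat.mul_le_mul_left _ (Nat.mul_le_mul_right _ hT.cc)
  rw [mul_assoc]; nlinarith

theorem sp_del0 (hS : TowerSpec g θ κ run k Sh It Ψ) (hN : Num P B k.th k.ψ k.er κ)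
    (hT : Tim g θ k P B c) {s : St T} {C : List ℕ} {N : Net} {e : ℕ}
    (h : J It P B s (e :: C) N) (he : e ∈ N.E) (hQ : Q Ψ k B s ≤ θ * F1 k B) :
    Sp g (del0 run s C e) fun u t => J It P B u.1 u.2 (N.del e) ∧ u.1.kn.get e = N.X e ∧
      u.1.arc = s.arc ∧ u.1.rf = s.rf ∧ u.1.log = s.log ∧
      θ * t + Q Ψ k B u.1 + θ * u.2.length +
        k.wt * ((s.kn.get e - s.rf.get e).natAbs * s.ll.get e) ≤
        Q Ψ k B s + θ * C.length + θ * (k.AU + 2) := by
  obtain ⟨G, f, h⟩ := h
  have gok := h.gok hN hT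
  have heG : e ∈ G.E := h.E ▸ he
  have gok' : (G.app (e, none)).Ok k.c :=
    ⟨(erase_subset _ _).trans gok.1, gok.2.1, fun e' h' => gok.2.2 e' (mem_of_mem_erase h')⟩
  simp only [del0, sp_bind, sp_call, sp_pure]
  refine (hS.upd (e, none) h.tw heG gok gok').mono ?_
  rintro r t ⟨f', i1, i2, i3, i4⟩
  simp only [insert_eq_of_mem heG] at i2 i3
  have hlen : r.2.1.length ≤ F1 k B + k.AU :=
    rep_len hT (a := Ψ s.tw) (z := θ * t + Ψ r.1 + k.wt * rw (G.app (e, none)).ed r.2.1)
      (by omega) (by unfold Q at hQ; omega)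
  have hX := rep_X hT i2 (Nat.le_add_right _ _) hlen
  refine (sp_app r.2.1 s.kn C fun x hx => ?_).mono ?_
  · have := h.kn_le hS hN (h.E ▸ (i2 x hx).1)
    omega
  rintro u t' ⟨a1, a2, a3, a4⟩
  have hE' : (G.app (e, none)).E = N.E.erase e := by rw [← h.E]; rfl
  refine ⟨⟨G.app (e, none), f', i1, hE', gok'.1, h.U, fun e' he' => ?_, fun e' he' => ?_⟩,
    ?_, trivial, trivial, trivial, ?_⟩
  · have hne : e' ≠ e := ne_of_mem_erase he'
    have hm : e' ∈ N.E := mem_of_mem_erase he'
    have o := h.ok e' hm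
    have i5 := i3 e' (h.E ▸ hm)
    rw [if_pos (hE' ▸ he'), if_pos (h.E ▸ hm)] at i5
    refine ⟨o.arc, o.bd, o.dx, o.dr, o.ed, ?_, ?_, fun hn => ?_⟩
    · exact (Arr.get_set_ne _ hne _).trans o.ll
    · change N.X e' = u.1.get e' + f' e'
      rw [a1, o.val]; omega
    · change (u.1.get e' - s.rf.get e').natAbs * (s.ll.set e 0).get e' ≤ _
      rw [a2, not_or] at hn
      rw [a1, rsum_eq_zero hn.1, add_zero, Arr.get_set_ne _ hne]
      exact o.chk (by simp [hne, hn.2])
  · change (s.ll.set e 0).get e' = 0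
    rw [Arr.get_set]
    split_ifs with h1
    · rfl
    · exact h.out e' fun hm => he' (mem_erase.2 ⟨h1, hm⟩)
  · have i5 := i3 e heG
    rw [if_neg (by rw [hE']; exact notMem_erase _ _), if_pos heG] at i5
    change u.1.get e = _
    rw [a1, (h.ok e he).val]; omega
  · have d1 := dev_rsum B.m s.kn.get s.rf.get (Function.update s.ll.get e 0) r.2.1
    have d2 := dev_erase (h.ok e he).bd.1 s.kn.get s.rf.get s.ll.get
    have d3 : (r.2.1.map fun x => x.2.natAbs * Function.update s.ll.get e 0 x.1).sum ≤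
        rw (G.app (e, none)).ed r.2.1 := sum_le_rw fun x hx => by
      by_cases h1 : x.1 = e
      · rw [h1, Function.update_self]; exact Nat.zero_le _
      · have o := h.ok x.1 (h.E ▸ (i2 x hx).1)
        rw [Function.update_of_ne h1, o.ll]
        change _ ≤ (G.ed x.1).l
        rw [o.ed]; exact le_rfl
    have e1 : u.1.get = fun e => s.kn.get e + rsum r.2.1 e := funext a1
    have d4 := Nat.mul_le_mul_left k.wt (show dev B.m u.1.get s.rf.get (s.ll.set e 0).get +
        (s.kn.get e - s.rf.get e).natAbs * s.ll.get e ≤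
        dev B.m s.kn.get s.rf.get s.ll.get + rw (G.app (e, none)).ed r.2.1 by
      rw [e1, Arr.set_get]; omega)
    have d5 := cc_pay hT r.2.1.length
    simp only [Q, a3, a4, mul_add] at d4 ⊢
    omega

theorem sp_ins0 (hS : TowerSpec g θ κ run k Sh It Ψ) (hN : Num P B k.th k.ψ k.er κ)
    (hT : Tim g θ k P B c) {s : St T} {C : List ℕ} {N : Net} {e : ℕ} {A : Arc} {x : ℤ}
    (h : J It P B s C N) (he : e ∉ N.E) (hA : B.arc e A) (hx : Dom B A x)
    (hQ : Q Ψ k B s ≤ θ * F1 k B) :
    Sp g (ins0 run P s C e A x) fun u t => J It P B u.1 u.2 (N.ins e A x) ∧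
      u.1.rf = s.rf.set e x ∧ u.1.log = e :: s.log ∧
      θ * t + Q Ψ k B u.1 + θ * u.2.length ≤ Q Ψ k B s + θ * C.length + θ * (k.AU + 2) := by
  obtain ⟨G, f, h⟩ := h
  have gok := h.gok hN hT
  have heG : e ∉ G.E := h.E ▸ he
  have hU : (G.app (e, some (edI P A x))).U ⊆ range B.m :=
    insert_subset (mem_range.2 hA.1) h.U
  have gok' : (G.app (e, some (edI P A x))).Ok k.c := by
    refine ⟨insert_subset_insert _ gok.1, ((card_le_card hU).trans_eq (card_range _)).trans hT.m,
      fun e' h' => ?_⟩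
    change k.c.ed e' (Function.update G.ed e (edI P A x) e')
    by_cases h1 : e' = e
    · rw [h1, Function.update_self]; exact edI_ok hN hT hA hx
    · rw [Function.update_of_ne h1]
      exact gok.2.2 e' ((mem_insert.1 h').resolve_left h1)
  have l1 := (lI_spec hN hA hx).2.2.2
  have l2 := (gI_spec hN hA hx).2
  simp only [ins0, sp_bind, sp_call, sp_pure, sp_nat, sp_int]
  refine ⟨l1.trans hT.X1, l2.trans hT.X2, (hS.upd (e, some (edI P A x)) h.tw heG gok gok').mono ?_⟩
  rintro r t ⟨f', i1, i2, i3, i4⟩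
  have hlen : r.2.1.length ≤ F1 k B + k.AU :=
    rep_len hT (a := Ψ s.tw)
      (z := θ * t + Ψ r.1 + k.wt * rw (G.app (e, some (edI P A x))).ed r.2.1)
      (by omega) (by unfold Q at hQ; omega)
  have hX := rep_X hT i2 (Nat.le_add_right _ _) hlen
  refine (sp_app r.2.1 (s.kn.set e x) C fun y hy => ?_).mono ?_
  · rw [Arr.get_set]
    split_ifs with h1
    · have := hx.natAbs_le hA
      omega
    · have := h.kn_le hS hN (h.E ▸ (mem_insert.1 (i2 y hy).1).resolve_left h1)
      omega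
  rintro u t' ⟨a1, a2, a3, a4⟩
  have hE' : (G.app (e, some (edI P A x))).E = insert e N.E := by rw [← h.E]; rfl
  have hed : (G.app (e, some (edI P A x))).ed = Function.update G.ed e (edI P A x) := rfl
  refine ⟨⟨G.app (e, some (edI P A x)), f', i1, hE', gok'.1, hU, fun e' he' => ?_,
    fun e' he' => ?_⟩, trivial, trivial, ?_⟩
  · have i5 := i3 e' (h.E ▸ he')
    rw [if_pos (hE' ▸ he')] at i5
    by_cases h1 : e' = e
    · subst h1
      rw [if_neg heG] at i5
      refine ⟨?_, ?_, ?_, ?_, ?_, ?_, ?_, fun hn => ?_⟩ <;>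
        simp only [Net.ins, Function.update_self, Arr.get_set_self, hed]
      · exact hA
      · exact hx
      · exact hx
      · rw [a1, Arr.get_set_self]; omega
      · rw [a2, not_or] at hn
        rw [a1, rsum_eq_zero hn.1, Arr.get_set_self]; simp
    · have hm : e' ∈ N.E := (mem_insert.1 he').resolve_left h1
      have o := h.ok e' hm
      rw [if_pos (h.E ▸ hm)] at i5
      refine ⟨?_, ?_, ?_, ?_, ?_, ?_, ?_, fun hn => ?_⟩ <;>
        simp only [Net.ins, Function.update_of_ne h1, Arr.get_set_ne _ h1, hed]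
      · exact o.arc
      · exact o.bd
      · exact o.dx
      · exact o.dr
      · exact o.ed
      · exact o.ll
      · rw [a1, Arr.get_set_ne _ h1, o.val]; omega
      · rw [a2, not_or] at hn
        rw [a1, rsum_eq_zero hn.1, add_zero, Arr.get_set_ne _ h1]
        exact o.chk hn.2
  · have h1 : e' ≠ e := fun h1 => he' (h1 ▸ mem_insert_self _ _)
    change (s.ll.set e (lI P A x)).get e' = 0
    rw [Arr.get_set_ne _ h1]
    exact h.out e' fun hm => he' (mem_insert_of_mem hm)
  · have d1 := dev_rsum B.m (Function.update s.kn.get e x) (Function.update s.rf.get e x)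
      (Function.update s.ll.get e (lI P A x)) r.2.1
    have d2 := dev_insert (m := B.m) s.kn.get s.rf.get (h.out e he) x (lI P A x)
    have d3 : (r.2.1.map fun y => y.2.natAbs * Function.update s.ll.get e (lI P A x) y.1).sum ≤
        rw (G.app (e, some (edI P A x))).ed r.2.1 := sum_le_rw fun y hy => by
      rw [hed]
      by_cases h1 : y.1 = e
      · rw [h1, Function.update_self, Function.update_self]; exact le_rfl
      · have o := h.ok y.1 (h.E ▸ (mem_insert.1 (i2 y hy).1).resolve_left h1)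
        rw [Function.update_of_ne h1, Function.update_of_ne h1, o.ll, o.ed]; exact le_rfl
    have e1 : u.1.get = fun e' => Function.update s.kn.get e x e' + rsum r.2.1 e' := by
      funext e'; rw [a1, Arr.set_get]
    have d4 := Nat.mul_le_mul_left k.wt (show dev B.m u.1.get (s.rf.set e x).get
        (s.ll.set e (lI P A x)).get ≤
        dev B.m s.kn.get s.rf.get s.ll.get + rw (G.app (e, some (edI P A x))).ed r.2.1 by
      rw [e1, Arr.set_get, Arr.set_get]; omega)
    have d5 := cc_pay hT r.2.1.length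
    simp only [Q, a3, a4, mul_add] at d4 ⊢
    omega

/-- what happened to the log and to the reference flows -/
def Lg (s s' : St T) (N : Net) (new : List ℕ) : Prop :=
  s'.log = new ++ s.log ∧ (∀ e ∈ new, e ∈ N.E ∧ s'.rf.get e = N.X e) ∧
    ∀ e, e ∉ new → s'.rf.get e = s.rf.get e

theorem Lg.refl (s : St T) (N : Net) : Lg s s N [] := ⟨rfl, by simp, fun _ _ => rfl⟩

theorem Lg.trans {s s' s'' : St T} {N : Net} {n n' : List ℕ} (h : Lg s s' N n)
    (h' : Lg s' s'' N n') : Lg s s'' N (n' ++ n) := by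
  refine ⟨by rw [h'.1, h.1, List.append_assoc], fun e he => ?_, fun e he => ?_⟩
  · by_cases h1 : e ∈ n'
    · exact h'.2.1 e h1
    · have h2 := h.2.1 e ((List.mem_append.1 he).resolve_left h1)
      exact ⟨h2.1, (h'.2.2 e h1).trans h2.2⟩
  · rw [List.mem_append, not_or] at he
    exact (h'.2.2 e he.1).trans (h.2.2 e he.2)

theorem sp_chk (hS : TowerSpec g θ κ run k Sh It Ψ) (hN : Num P B k.th k.ψ k.er κ)
    (hT : Tim g θ k P B c) {s : St T} {C : List ℕ} {N : Net} {e : ℕ}
    (h : J It P B s (e :: C) N) (hQ : Q Ψ k B s + θ * (e :: C).length ≤ θ * F1 k B) :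
    Sp g (chk run P (s, e :: C)) fun u t => J It P B u.1 u.2 N ∧ ∃ new, Lg s u.1 N new ∧
      θ * (t + 1) + Q Ψ k B u.1 + θ * u.2.length + θ * (c.cl * new.length) ≤
        Q Ψ k B s + θ * (e :: C).length := by
  simp only [chk, List.length_cons, mul_add, mul_one] at hQ ⊢
  rw [sp_ite]
  constructor
  · intro hlt
    have he : e ∈ N.E := by
      by_contra hn
      obtain ⟨G, f, h⟩ := h
      rw [h.out e hn] at hlt
      omega
    have o : s.arc.get e = N.arc e ∧ B.arc e (N.arc e) ∧ Dom B (N.arc e) (N.X e) := by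
      obtain ⟨G, f, h⟩ := h
      exact ⟨(h.ok e he).arc, (h.ok e he).bd, (h.ok e he).dx⟩
    have w1 := hT.wt
    have w2 := Nat.mul_le_mul_left k.wt hlt.le
    refine (sp_del0 hS hN hT h he (by omega)).bind ?_
    rintro v t ⟨a1, a2, a3, a4, a5, a6⟩
    simp only [mul_add] at w1 a6
    rw [a2, a3, o.1]
    refine (sp_ins0 hS hN hT a1 (notMem_erase _ _) o.2.1 o.2.2 (by nlinarith)).mono ?_
    rintro u t' ⟨b1, b2, b3, b4⟩
    rw [Net.ins_del he] at b1
    refine ⟨b1, [e], ⟨by rw [b3, a5]; rfl, fun e' he' => ?_, fun e' he' => ?_⟩, ?_⟩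
    · rw [List.mem_singleton.1 he', b2]; exact ⟨he, Arr.get_set_self _ _ _⟩
    · rw [b2, a4]; exact Arr.get_set_ne _ (by simpa using he') _
    · simp only [mul_add, List.length_singleton, mul_one] at b4 ⊢
      nlinarith
  · intro hle
    refine sp_pure.2 ⟨?_, [], Lg.refl _ _, by simp; omega⟩
    obtain ⟨G, f, h⟩ := h
    refine ⟨G, f, h.tw, h.E, h.EU, h.U, fun e' he' =>
      { h.ok e' he' with chk := fun hn => ?_ }, h.out⟩
    by_cases h1 : e' = e
    · subst h1; exact not_lt.1 hle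
    · exact (h.ok e' he').chk (by simp [h1, hn])

theorem sp_proc (hS : TowerSpec g θ κ run k Sh It Ψ) (hN : Num P B k.th k.ψ k.er κ)
    (hT : Tim g θ k P B c) {s : St T} {C : List ℕ} {N : Net}
    (h : J It P B s C N) (hQ : Q Ψ k B s + θ * C.length ≤ θ * F1 k B) :
    Sp g (proc run P (s, C)) fun s' t => J It P B s' [] N ∧ ∃ new, Lg s s' N new ∧
      θ * t + Q Ψ k B s' + θ * (c.cl * new.length) ≤ Q Ψ k B s + θ * C.length + θ := by
  simp only [proc, sp_bind, sp_pure]
  refine (sp_whileT (fun u t => J It P B u.1 u.2 N ∧ ∃ new, Lg s u.1 N new ∧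
      θ * t + Q Ψ k B u.1 + θ * u.2.length + θ * (c.cl * new.length) ≤ Q Ψ k B s + θ * C.length)
      (F1 k B) ?_ ?_ (t := 0) ⟨h, [], Lg.refl _ _, by simp⟩ ?_).mono ?_
  · rintro u t ⟨-, new, -, h2⟩ -
    exact Nat.le_of_mul_le_mul_left (show θ * t ≤ θ * F1 k B by omega) hT.θ1
  · rintro ⟨s', C'⟩ t ⟨h1, new, h2, h3⟩ hc
    cases C' with
    | nil => simp at hc
    | cons e C' =>
      dsimp only at h1 h2 h3
      refine (sp_chk hS hN hT h1 (by omega)).mono ?_
      rintro u t' ⟨b1, new', b2, b3⟩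
      refine ⟨b1, new' ++ new, h2.trans b2, ?_⟩
      simp only [List.length_append, mul_add, mul_one] at h3 b3 ⊢
      omega
  · have := hT.fu
    unfold F1; omega
  · rintro ⟨s', C'⟩ _ ⟨hc, t, rfl, h1, new, h2, h3⟩
    have : C' = [] := by simpa using hc
    subst this
    refine ⟨h1, new, h2, ?_⟩
    simp only [List.length_nil, mul_add, mul_one, zero_add, mul_zero, add_zero] at h3 ⊢
    omega

end Crest.Agent.N325.Ip
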