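import Crest.Agent.N325.Ip.Pot

/-!
# Row 325 (helper74): what the approximate duals say about one arc
-/

set_option autoImplicit false
open Finset

namespace Crest.Agent.N325.Ip

open Crest.Agent.N325.Tw Crest.Agent.N325.Ipm

variable {P : Pm} {B : Bn} {e : ℕ} {A : Arc} {x : ℤ} {N : Net} {d Y : ℝ}

/-- the arc `A` with flow `x` is quiet for the potential difference `d` (head minus tail) -/
def Qt (P : Pm) (A : Arc) (x : ℤ) (d : ℝ) : Prop := |gr P A x - d| ≤ ln P A x / 10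

theorem quiet_iff : Quiet P N ↔
    ∃ y : ℕ → ℝ, ∀ e ∈ N.E, Qt P (N.arc e) (N.X e) (y (N.arc e).b - y (N.arc e).a) := Iff.rfl

/-- duals normalised at the ground vertex -/
theorem Quiet.zero (h : Quiet P N) : ∃ y : ℕ → ℝ, y 0 = 0 ∧
    ∀ e ∈ N.E, Qt P (N.arc e) (N.X e) (y (N.arc e).b - y (N.arc e).a) := by
  obtain ⟨y, hy⟩ := h
  exact ⟨fun v => y v - y 0, sub_self _, fun e he => by
    simpa only [Qt, sub_sub_sub_cancel_right] using hy e he⟩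

theorem Qt.up (h : Qt P A x d) : d ≤ A.p - 9 / 10 * (A.c1 * wt (σ0 P) (s1 P A x) +
    A.c2 * wt (σ0 P) (s2 P A x)) + 11 / 10 * (A.c3 * wt (σ0 P) (s3 P A x)) := by
  have := (abs_le.1 h).1; unfold gr ln at this; linarith

theorem Qt.lo (h : Qt P A x d) : A.p - 11 / 10 * (A.c1 * wt (σ0 P) (s1 P A x) +
    A.c2 * wt (σ0 P) (s2 P A x)) + 9 / 10 * (A.c3 * wt (σ0 P) (s3 P A x)) ≤ d := by
  have := (abs_le.1 h).2; unfold gr ln at this; linarith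

theorem wt_le_div (hD : 1 ≤ P.D) (hs0 : 1 ≤ P.s0) {y z : ℝ} (hz : (P.s0 : ℝ) ≤ z) (h : z ≤ y) :
    wt (σ0 P) (y / P.D) ≤ P.D / z := by
  have s0 : (0 : ℝ) < P.s0 := by exact_mod_cast hs0
  rw [wt_eq hD (hz.trans h)]
  exact div_le_div_of_nonneg_left (Nat.cast_nonneg _) (s0.trans_le hz) h

/-- upper bound of the rise when the upper slack is at least `z ≥ s0` -/
theorem Qt.up_of (hD : 1 ≤ P.D) (hs0 : 1 ≤ P.s0) (hA : B.arc e A) (h1 : 0 < x + A.o1)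
    (h : Qt P A x d) {z : ℝ} (hz : (P.s0 : ℝ) ≤ z) (k : z ≤ (A.o3 : ℝ) - x) :
    d ≤ A.p - 9 / 10 * (A.c1 * (P.D / ((x : ℝ) + A.o1)) + A.c2 * (P.D / ((x : ℝ) + A.o2))) +
      11 / 10 * (A.c3 * (P.D / z)) := by
  have a1 : (0 : ℝ) < (x : ℝ) + A.o1 := by exact_mod_cast h1
  have b1 : (A.o1 : ℝ) ≤ A.o2 := by exact_mod_cast hA.2.2.2.2.2.2.2.1
  have u1 := mul_le_mul_of_nonneg_left (le_wt hD a1) (Nat.cast_nonneg (α := ℝ) A.c1)
  have u2 := mul_le_mul_of_nonneg_left (le_wt hD (y := (x : ℝ) + A.o2) (by linarith))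
    (Nat.cast_nonneg (α := ℝ) A.c2)
  have u3 := mul_le_mul_of_nonneg_left (wt_le_div hD hs0 hz k) (Nat.cast_nonneg (α := ℝ) A.c3)
  have := h.up; unfold s1 s2 s3 at this; linarith

/-- lower bound of the rise when the lower slack is at least `z ≥ s0` -/
theorem Qt.lo_of (hD : 1 ≤ P.D) (hs0 : 1 ≤ P.s0) (hA : B.arc e A) (h3 : 0 < A.o3 - x)
    (h : Qt P A x d) {z : ℝ} (hz : (P.s0 : ℝ) ≤ z) (k : z ≤ (x : ℝ) + A.o1) :
    A.p - 11 / 10 * ((A.c1 + A.c2) * (P.D / z)) + 9 / 10 * (A.c3 * (P.D / ((A.o3 : ℝ) - x))) ≤ d := by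
  have a3 : (0 : ℝ) < (A.o3 : ℝ) - x := by exact_mod_cast h3
  have b1 : (A.o1 : ℝ) ≤ A.o2 := by exact_mod_cast hA.2.2.2.2.2.2.2.1
  have u1 := mul_le_mul_of_nonneg_left (wt_le_div hD hs0 hz k) (Nat.cast_nonneg (α := ℝ) A.c1)
  have u2 := mul_le_mul_of_nonneg_left (wt_le_div hD hs0 hz (y := (x : ℝ) + A.o2) (by linarith))
    (Nat.cast_nonneg (α := ℝ) A.c2)
  have u3 := mul_le_mul_of_nonneg_left (le_wt hD a3) (Nat.cast_nonneg (α := ℝ) A.c3)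
  have := h.lo; unfold s1 s2 s3 at this; linarith

/-- simple form: the rise is at most the price plus the upper term -/
theorem Qt.le_of (hD : 1 ≤ P.D) (hs0 : 1 ≤ P.s0) (hA : B.arc e A) (h1 : 0 < x + A.o1)
    (h : Qt P A x d) {z : ℝ} (hz : (P.s0 : ℝ) ≤ z) (k : z ≤ (A.o3 : ℝ) - x) :
    d ≤ A.p + 11 / 10 * (A.c3 * (P.D / z)) := by
  have a1 : (0 : ℝ) < (x : ℝ) + A.o1 := by exact_mod_cast h1
  have b1 : (A.o1 : ℝ) ≤ A.o2 := by exact_mod_cast hA.2.2.2.2.2.2.2.1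
  have a2 : (0 : ℝ) < (x : ℝ) + A.o2 := by linarith
  have := h.up_of hD hs0 hA h1 hz k
  have : (0 : ℝ) ≤ A.c1 * (P.D / ((x : ℝ) + A.o1)) + A.c2 * (P.D / ((x : ℝ) + A.o2)) := by positivity
  linarith

/-- simple form: the fall is at most the lower terms -/
theorem Qt.ge_of (hD : 1 ≤ P.D) (hs0 : 1 ≤ P.s0) (hA : B.arc e A) (h3 : 0 < A.o3 - x)
    (h : Qt P A x d) {z : ℝ} (hz : (P.s0 : ℝ) ≤ z) (k : z ≤ (x : ℝ) + A.o1) :
    A.p - 11 / 10 * ((A.c1 + A.c2) * (P.D / z)) ≤ d := by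
  have a3 : (0 : ℝ) < (A.o3 : ℝ) - x := by exact_mod_cast h3
  have := h.lo_of hD hs0 hA h3 hz k
  have : (0 : ℝ) ≤ A.c3 * (P.D / ((A.o3 : ℝ) - x)) := by positivity
  linarith

/-- **floor**: bounded duals keep both slacks above `lam` (arcs of width at least one unit) -/
theorem Qt.floor (hD : 1 ≤ P.D) (hs0 : 1 ≤ P.s0) (hA : B.arc e A) (h1 : 0 < x + A.o1)
    (h3 : 0 < A.o3 - x) (h : Qt P A x d) (hY : |d| ≤ Y) (hU : P.D ≤ A.o1 + A.o3)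
    (hs : 2 * P.s0 ≤ P.D) {lam : ℕ} (hl : 2 * lam * (B.pb + Y + 3 * B.cb) ≤ P.D) :
    (lam : ℤ) ≤ x + A.o1 ∧ (lam : ℤ) ≤ A.o3 - x := by
  have hD' : (0 : ℝ) < P.D := by exact_mod_cast hD
  have a1 : (0 : ℝ) < (x : ℝ) + A.o1 := by exact_mod_cast h1
  have a3 : (0 : ℝ) < (A.o3 : ℝ) - x := by exact_mod_cast h3
  have U : (P.D : ℝ) ≤ A.o1 + A.o3 := by exact_mod_cast hU
  have hz : (P.s0 : ℝ) ≤ P.D / 2 := by
    have : (2 : ℝ) * P.s0 ≤ P.D := by exact_mod_cast hs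
    linarith
  have e2 : (P.D : ℝ) / (P.D / 2) = 2 := by field_simp
  have hA' := hA
  obtain ⟨-, -, -, pb, c1, c3, cb, o12, -⟩ := hA'
  have pb' : (A.p : ℝ) ≤ B.pb := by exact_mod_cast pb
  have c1' : (1 : ℝ) ≤ A.c1 := by exact_mod_cast c1
  have c3' : (1 : ℝ) ≤ A.c3 := by exact_mod_cast c3
  have cb' : (A.c1 : ℝ) + A.c2 + A.c3 ≤ B.cb := by exact_mod_cast cb
  have c2 := Nat.cast_nonneg (α := ℝ) A.c2
  have p0 := Nat.cast_nonneg (α := ℝ) A.p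
  have l0 := Nat.cast_nonneg (α := ℝ) lam
  obtain ⟨y1, y2⟩ := abs_le.1 hY
  have Y0 : 0 ≤ Y := (abs_nonneg d).trans hY
  set W : ℝ := B.pb + Y + 3 * B.cb with hW
  have W1 : 1 ≤ W := by linarith
  have half : (lam : ℝ) ≤ P.D / 2 := by nlinarith
  have key : ∀ z : ℝ, 0 < z → P.D / z ≤ 2 * W → (lam : ℝ) ≤ z := fun z z0 k => by
    rw [div_le_iff₀ z0] at k; nlinarith
  have : (lam : ℝ) ≤ (x : ℝ) + A.o1 ∧ (lam : ℝ) ≤ (A.o3 : ℝ) - x := by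
    rcases le_total (P.D / 2 : ℝ) ((x : ℝ) + A.o1) with k | k
    · refine ⟨half.trans k, key _ a3 ?_⟩
      have t := h.lo_of hD hs0 hA h3 hz k
      rw [e2] at t
      have : P.D / ((A.o3 : ℝ) - x) ≤ A.c3 * (P.D / ((A.o3 : ℝ) - x)) :=
        le_mul_of_one_le_left (by positivity) c3'
      linarith
    · have k' : (P.D / 2 : ℝ) ≤ (A.o3 : ℝ) - x := by linarith
      refine ⟨key _ a1 ?_, half.trans k'⟩
      have t := h.up_of hD hs0 hA h1 hz k'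
      rw [e2] at t
      have : P.D / ((x : ℝ) + A.o1) ≤ A.c1 * (P.D / ((x : ℝ) + A.o1)) :=
        le_mul_of_one_le_left (by positivity) c1'
      have b1 : (A.o1 : ℝ) ≤ A.o2 := by exact_mod_cast o12
      have a2 : (0 : ℝ) < (x : ℝ) + A.o2 := by linarith
      have : (0 : ℝ) ≤ A.c2 * (P.D / ((x : ℝ) + A.o2)) := by positivity
      linarith
  exact ⟨by exact_mod_cast this.1, by exact_mod_cast this.2⟩

/-- one of the terms of a sum is at least the average -/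
theorem exists_ge_of_sum {s : Finset ℕ} {f : ℕ → ℤ} {k : ℕ} {T : ℤ} (hs : s.card ≤ k) (hT : 0 < T)
    (h : T ≤ ∑ i ∈ s, f i) : ∃ i ∈ s, T ≤ k * f i := by
  by_contra hc
  push Not at hc
  rcases s.eq_empty_or_nonempty with rfl | hne
  · simp at h; omega
  · have h1 : ∑ i ∈ s, (k : ℤ) * f i < ∑ _i ∈ s, T := sum_lt_sum_of_nonempty hne hc
    rw [← mul_sum, sum_const, nsmul_eq_mul] at h1
    have : (s.card : ℤ) ≤ k := by exact_mod_cast hs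
    have k0 : (0 : ℤ) ≤ k := Nat.cast_nonneg _
    nlinarith

end Crest.Agent.N325.Ip
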