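import Crest.Agent.N325.Ip.Bar

/-!
# Row 325, Ip (B): the rounded lengths and gradients (helper12)
-/

set_option autoImplicit false
open Finset

namespace Crest.Agent.N325.Ip

open Crest.Agent.N325.Tw Crest.Agent.N325.Ipm

variable {P : Pm} {B : Bn} {th ψ er κ e : ℕ} {A : Arc} {x r : ℤ}

theorem wI_real (hD : 1 ≤ P.D) (G c : ℕ) {y : ℤ} (hy : 0 < y) :
    (wI P G c y.toNat : ℝ) ≤ G * (c * wt (σ0 P) ((y : ℝ) / P.D)) ∧
      G * (c * wt (σ0 P) ((y : ℝ) / P.D)) < wI P G c y.toNat + 1 := by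
  obtain ⟨s, rfl⟩ := Int.eq_ofNat_of_zero_le hy.le
  have hs : (0 : ℝ) < s := by exact_mod_cast hy
  have hD' : (0 : ℝ) < P.D := by exact_mod_cast hD
  have fl : ∀ a b : ℕ, ((a / b : ℕ) : ℝ) ≤ (a : ℝ) / b ∧ (a : ℝ) / b < (a / b : ℕ) + 1 := by
    intro a b
    rw [← Nat.floor_div_eq_div (K := ℝ)]
    exact ⟨Nat.floor_le (by positivity), Nat.lt_floor_add_one _⟩
  rw [Int.toNat_natCast, Int.cast_natCast, wI]
  split_ifs with h
  · have : σ0 P ≤ (s : ℝ) / P.D := div_le_div_of_nonneg_right (by exact_mod_cast h) hD'.le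
    rw [wt_of_le this, show (G : ℝ) * (c * (1 / ((s : ℝ) / P.D))) = ((G * c * P.D : ℕ) : ℝ) / s by
      push_cast; field_simp]
    exact fl _ _
  · have : (s : ℝ) / P.D < σ0 P :=
      div_lt_div_of_pos_right (by exact_mod_cast not_le.1 h) hD'
    rw [wt_of_lt this, show (G : ℝ) * (c * (σ0 P / ((s : ℝ) / P.D) ^ 2))
        = ((G * c * P.s0 * P.D : ℕ) : ℝ) / ((s * s : ℕ) : ℝ) by
      unfold σ0; push_cast; field_simp]
    exact fl _ _

theorem wI_mul_le (h : Num P B th ψ er κ) (G c : ℕ) {y : ℤ} (hy : (B.sm : ℤ) ≤ y) :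
    wI P G c y.toNat * (B.sm * B.sm) ≤ G * c * P.s0 * P.D := by
  have h1 : B.sm ≤ y.toNat := by omega
  have h2 : B.sm ≤ P.s0 := le_trans (Nat.le_mul_of_pos_right _ (Nat.succ_pos _)) h.sm
  unfold wI
  split_ifs with k
  · calc _ ≤ G * c * P.D / y.toNat * (y.toNat * P.s0) :=
          Nat.mul_le_mul_left _ (Nat.mul_le_mul h1 h2)
      _ = G * c * P.D / y.toNat * y.toNat * P.s0 := by ring
      _ ≤ G * c * P.D * P.s0 := Nat.mul_le_mul_right _ (Nat.div_mul_le_self _ _)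
      _ = _ := by ring
  · exact (Nat.mul_le_mul_left _ (Nat.mul_le_mul h1 h1)).trans (Nat.div_mul_le_self _ _)

theorem wI_sum_le (h : Num P B th ψ er κ) (hA : B.arc e A) (hx : Dom B A x) (G : ℕ) :
    wI P G A.c1 (x + A.o1).toNat + wI P G A.c2 (x + A.o2).toNat + wI P G A.c3 (A.o3 - x).toNat
      ≤ G * B.cb * P.s0 * P.D / (B.sm * B.sm) := by
  obtain ⟨-, -, -, -, -, -, a7, a8, -⟩ := hA
  have k1 := wI_mul_le h G A.c1 hx.1
  have k2 := wI_mul_le h G A.c2 (y := x + A.o2) (by have := hx.1; omega)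
  have k3 := wI_mul_le h G A.c3 hx.2
  rw [Nat.le_div_iff_mul_le (Nat.mul_pos h.sm1 h.sm1), add_mul, add_mul]
  calc _ ≤ G * (A.c1 + A.c2 + A.c3) * P.s0 * P.D := by
        rw [mul_add, mul_add, add_mul, add_mul, add_mul, add_mul]; omega
    _ ≤ _ := Nat.mul_le_mul_right _ (Nat.mul_le_mul_right _ (Nat.mul_le_mul_left _ a7))

theorem wI_slacks (h : Num P B th ψ er κ) (hA : B.arc e A) (hx : Dom B A x) (G : ℕ) :
    ((wI P G A.c1 (x + A.o1).toNat : ℝ) ≤ G * (A.c1 * wt (σ0 P) (s1 P A x)) ∧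
      G * (A.c1 * wt (σ0 P) (s1 P A x)) < wI P G A.c1 (x + A.o1).toNat + 1) ∧
    ((wI P G A.c2 (x + A.o2).toNat : ℝ) ≤ G * (A.c2 * wt (σ0 P) (s2 P A x)) ∧
      G * (A.c2 * wt (σ0 P) (s2 P A x)) < wI P G A.c2 (x + A.o2).toNat + 1) ∧
    ((wI P G A.c3 (A.o3 - x).toNat : ℝ) ≤ G * (A.c3 * wt (σ0 P) (s3 P A x)) ∧
      G * (A.c3 * wt (σ0 P) (s3 P A x)) < wI P G A.c3 (A.o3 - x).toNat + 1) := by
  have := h.sm1; have := hx.1; have := hx.2; have := hA.2.2.2.2.2.2.2.1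
  have k1 := wI_real h.D G A.c1 (y := x + A.o1) (by omega)
  have k2 := wI_real h.D G A.c2 (y := x + A.o2) (by omega)
  have k3 := wI_real h.D G A.c3 (y := A.o3 - x) (by omega)
  push_cast at k1 k2 k3
  exact ⟨k1, k2, k3⟩

theorem hundred_le (h : Num P B th ψ er κ) (hA : B.arc e A) (hx : Dom B A x) :
    100 ≤ P.Gl * ln P A x := by
  have := h.sm1; have := hx.1; have := hx.2
  have k := (ln_pos h.D hA (x := x) (by omega) (by omega)).1
  have hM : (0 : ℝ) < B.Mu := by exact_mod_cast h.s0_pos.trans h.s0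
  have g : (100 : ℝ) * B.Mu ≤ P.Gl * P.D := by exact_mod_cast h.Gl
  refine le_trans ?_ (mul_le_mul_of_nonneg_left k (Nat.cast_nonneg _))
  rw [← mul_div_assoc, le_div_iff₀ hM]; exact g

theorem lI_spec (h : Num P B th ψ er κ) (hA : B.arc e A) (hx : Dom B A x) :
    P.Gl * ln P A x ≤ lI P A x ∧ (lI P A x : ℝ) ≤ 103 / 100 * (P.Gl * ln P A x) ∧
      1 ≤ lI P A x ∧ lI P A x ≤ lbI P B := by
  obtain ⟨⟨a1, b1⟩, ⟨a2, b2⟩, a3, b3⟩ := wI_slacks h hA hx P.Gl
  have k := hundred_le h hA hx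
  have s := wI_sum_le h hA hx P.Gl
  refine ⟨?_, ?_, by unfold lI; omega, by unfold lI lbI; omega⟩
  · unfold lI ln; push_cast; linarith
  · unfold ln at k; unfold lI ln; push_cast; linarith

theorem gI_spec (h : Num P B th ψ er κ) (hA : B.arc e A) (hx : Dom B A x) :
    |(gI P A x : ℝ) - P.Gg * gr P A x| ≤ 2 / 100 * (P.Gl * ln P A x) ∧
      (gI P A x).natAbs ≤ gbI P B := by
  obtain ⟨⟨a1, b1⟩, ⟨a2, b2⟩, a3, b3⟩ := wI_slacks h hA hx P.Gg
  have k := hundred_le h hA hx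
  have s := wI_sum_le h hA hx P.Gg
  refine ⟨le_trans (b := 2) ?_ (by linarith), ?_⟩
  · unfold gI gr; push_cast; rw [abs_le]; constructor <;> linarith
  · have := Nat.mul_le_mul_left P.Gg hA.2.2.2.1
    unfold gI gbI; omega

theorem near_of_int (h : Num P B th ψ er κ) (hA : B.arc e A) (hr : Dom B A r)
    (hx : (x - r).natAbs * lI P A r ≤ er + P.thr) : Near P A (ψ / (4000 * th)) x r := by
  have l1 := (lI_spec h hA hr).1
  have k := hundred_le h hA hr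
  have hth : (0 : ℝ) < th := by exact_mod_cast h.ψ1.trans h.ψth
  have hD : (0 : ℝ) < P.D := by exact_mod_cast h.D
  have hGl : (0 : ℝ) < P.Gl := by
    rcases (Nat.cast_nonneg (α := ℝ) P.Gl).eq_or_lt with e | e
    · rw [← e] at k; linarith
    · exact e
  have e1 : |(x : ℝ) - r| * lI P A r ≤ er + P.thr := by
    have : (((x - r).natAbs * lI P A r : ℕ) : ℝ) ≤ ((er + P.thr : ℕ) : ℝ) := by exact_mod_cast hx
    simpa using this
  have e2 : (4000 : ℝ) * th * (er + P.thr) ≤ P.D * P.Gl * ψ := by exact_mod_cast h.er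
  have e3 := (mul_le_mul_of_nonneg_left l1 (abs_nonneg ((x : ℝ) - r))).trans e1
  unfold Near
  rw [div_mul_eq_mul_div, div_le_div_iff₀ hD (by positivity)]
  refine le_of_mul_le_mul_right ?_ hGl
  nlinarith

end Crest.Agent.N325.Ip
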