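import Crest.Agent.N325.Ip.Raw

/-! # Row 325 (helper62): the specification of the primal centre -/

set_option autoImplicit false
open Finset

namespace Crest.Agent.N325.Ip

open Crest.Agent.N325.Tw Crest.Agent.N325.Ipm

variable {T : Type} {g : Gl} {θ κ : ℕ} {run : Cmd × T → R (T × Rep × Bool)} {k : TC}
  {Sh : T → Prop} {It : T → Gr → (ℕ → ℤ) → Prop} {Ψ : T → ℕ} {P : Pm} {B : Bn} {c : IC}

/-- the potential of the layer -/
noncomputable def Ph (θ : ℕ) (Ψ : T → ℕ) (k : TC) (B : Bn) (s : St T) : ℝ := (Q Ψ k B s : ℝ) / θ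

theorem Q_le (hT : Tim g θ k P B c) {s : St T} {F : ℕ} (h : Ph θ Ψ k B s ≤ F) :
    Q Ψ k B s ≤ θ * F := by
  have h0 : (0 : ℝ) < θ := by exact_mod_cast hT.θ1
  unfold Ph at h
  rw [div_le_iff₀ h0, mul_comm] at h
  exact_mod_cast h

theorem Ph_le (hT : Tim g θ k P B c) {s s' : St T} {a b : ℕ}
    (h : θ * a + Q Ψ k B s' ≤ Q Ψ k B s + θ * b) :
    (a : ℝ) + Ph θ Ψ k B s' ≤ Ph θ Ψ k B s + b := by
  have h0 : (0 : ℝ) < θ := by exact_mod_cast hT.θ1
  have h1 : (θ : ℝ) * a + Q Ψ k B s' ≤ Q Ψ k B s + θ * b := by exact_mod_cast h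
  unfold Ph
  rw [← sub_nonneg]
  have : (Q Ψ k B s : ℝ) / θ + b - (a + Q Ψ k B s' / θ) =
      (Q Ψ k B s + θ * b - (θ * a + Q Ψ k B s')) / θ := by field_simp
  rw [this]
  exact div_nonneg (by linarith) h0.le

theorem Ph_nonneg (s : St T) : 0 ≤ Ph θ Ψ k B s := by unfold Ph; positivity

theorem Lg.upd (hT : Tim g θ k P B c) {s s' : St T} {N : Net} {new : List ℕ} (h : Lg s s' N new)
    {t a A : ℕ} (ht : θ * t + Q Ψ k B s' + θ * (c.cl * new.length) ≤ Q Ψ k B s + θ * a)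
    (hA : a ≤ A) : Upd c (Ph θ Ψ k B) s s' N.E new t A := by
  refine ⟨h.1, fun e he => (h.2.1 e he).1, h.2.2, ?_⟩
  have h1 := Ph_le (Ψ := Ψ) hT (s := s) (s' := s') (a := t + c.cl * new.length) (b := a)
    (by rw [mul_add]; omega)
  have h2 : (a : ℝ) ≤ A := by exact_mod_cast hA
  push_cast at h1
  linarith

theorem Core.link (hS : TowerSpec g θ κ run k Sh It Ψ) {s : St T} {N : Net} {G : Gr} {f : ℕ → ℤ}
    (h : Core It P B s [] N G f) : Link P B k.er N s.rf.get G := by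
  refine ⟨h.E, fun e he => ?_⟩
  have o := h.ok e he
  refine ⟨o.bd, o.dx, o.dr, o.ed, ?_⟩
  have h1 := hS.stale h.tw e (h.E ▸ he)
  have h2 := o.chk List.not_mem_nil
  rw [o.ed] at h1
  rw [o.ll] at h2
  have h3 : (N.X e - s.rf.get e).natAbs ≤ (f e).natAbs + (s.kn.get e - s.rf.get e).natAbs := by
    have := o.val; omega
  have h4 := Nat.mul_le_mul_right (lI P (N.arc e) (s.rf.get e)) h3
  rw [add_mul] at h4
  exact h4.trans (Nat.add_le_add h1 h2)

theorem sp_ins (hS : TowerSpec g θ κ run k Sh It Ψ) (hN : Num P B k.th k.ψ k.er κ)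
    (hT : Tim g θ k P B c) {s : St T} {N : Net} {e : ℕ} {A : Arc} {x : ℤ}
    (h : J It P B s [] N) (hQ : Q Ψ k B s ≤ θ * B.F) (he : e ∉ N.E) (hA : B.arc e A)
    (hx : Dom B A x) :
    Sp g (ins run P s e A x) fun s' t => J It P B s' [] (N.ins e A x) ∧ ∃ new, e ∈ new ∧
      Lg s s' (N.ins e A x) new ∧
      θ * t + Q Ψ k B s' + θ * (c.cl * new.length) ≤ Q Ψ k B s + θ * (k.AU + c.cl + 3) := by
  have hF : θ * F1 k B = θ * B.F + θ * k.AU + θ * k.AS + θ * 9 := by unfold F1; ring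
  refine (sp_ins0 hS hN hT h he hA hx (by omega)).bind ?_
  rintro ⟨s1, C⟩ t ⟨a1, a2, a3, a4⟩
  dsimp only at a1 a2 a3 a4
  simp only [List.length_nil, mul_add, mul_zero] at a4
  refine (sp_proc hS hN hT a1 (by omega)).mono ?_
  rintro s' t' ⟨b1, new, b2, b3⟩
  have l : Lg s s1 (N.ins e A x) [e] := by
    refine ⟨a3, fun e' he' => ?_, fun e' he' => ?_⟩
    · rw [List.mem_singleton.1 he', a2]
      exact ⟨mem_insert_self _ _, by simp [Net.ins]⟩
    · rw [a2]; exact Arr.get_set_ne _ (by simpa using he') _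
  refine ⟨b1, new ++ [e], by simp, l.trans b2, ?_⟩
  simp only [List.length_append, List.length_singleton, mul_add, mul_one] at b3 ⊢
  omega

theorem sp_del (hS : TowerSpec g θ κ run k Sh It Ψ) (hN : Num P B k.th k.ψ k.er κ)
    (hT : Tim g θ k P B c) {s : St T} {N : Net} {e : ℕ}
    (h : J It P B s [] N) (hQ : Q Ψ k B s ≤ θ * B.F) (he : e ∈ N.E) :
    Sp g (del run P s e) fun r t => J It P B r.1 [] (N.del e) ∧ r.2 = N.X e ∧ ∃ new,
      Lg s r.1 (N.del e) new ∧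
      θ * t + Q Ψ k B r.1 + θ * (c.cl * new.length) ≤ Q Ψ k B s + θ * (k.AU + 3) := by
  have hF : θ * F1 k B = θ * B.F + θ * k.AU + θ * k.AS + θ * 9 := by unfold F1; ring
  refine (sp_del0 hS hN hT (h.mono (by simp)) he (by omega)).bind ?_
  rintro ⟨s1, C⟩ t ⟨a1, a2, a3, a4, a5, a6⟩
  dsimp only at a1 a2 a3 a4 a5 a6
  simp only [List.length_nil, mul_add, mul_zero] at a6
  refine (sp_proc hS hN hT a1 (by omega)).bind ?_
  rintro s' t' ⟨b1, new, b2, b3⟩
  refine sp_pure.2 ⟨b1, a2, new, ⟨by rw [b2.1, a5], b2.2.1, fun e' he' => by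
    rw [b2.2.2 e' he', a4]⟩, ?_⟩
  simp only [mul_add, add_zero] at b3 ⊢
  omega

theorem sp_step1 (hS : TowerSpec g θ κ run k Sh It Ψ) (hN : Num P B k.th k.ψ k.er κ)
    (hT : Tim g θ k P B c) {s : St T} {b : Bool} {N : Net}
    (h : J It P B s [] N) (hQ : Q Ψ k B s ≤ θ * B.F) (hp : pot P B N ≤ B.F) :
    Sp g (step1 run P (s, b)) fun u t => ∃ d, N.Circ d ∧ J It P B u.1 [] (N.add d) ∧
      (if u.2 then pot P B (N.add d) + (k.ψ : ℝ) ^ 2 / (10 ^ 6 * k.th ^ 2) ≤ pot P B N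
        else N.add d = N ∧ Quiet P N) ∧ ∃ new, Lg s u.1 (N.add d) new ∧
      θ * t + Q Ψ k B u.1 + θ * (c.cl * new.length) ≤ Q Ψ k B s + θ * (k.AS + 3) := by
  have hF : θ * F1 k B = θ * B.F + θ * k.AU + θ * k.AS + θ * 9 := by unfold F1; ring
  obtain ⟨G, f, h⟩ := h
  have gok := h.gok hN hT
  have L := h.link hS
  simp only [step1, sp_bind, sp_call, sp_pure]
  refine (hS.step (0, none) h.tw gok).mono ?_
  rintro r t ⟨f', d, i1, i2, i3, i4, i5⟩
  have hlen : r.2.1.length ≤ F1 k B + k.AS :=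
    rep_len hT (a := Ψ s.tw) (z := θ * t + Ψ r.1 + k.wt * rw G.ed r.2.1)
      (by omega) (by unfold Q at hQ; omega)
  have hX := rep_X hT i2 (Nat.le_add_left _ _) hlen
  refine (sp_app r.2.1 s.kn [] fun x hx => ?_).mono ?_
  · have := h.kn_le hS hN (h.E ▸ (i2 x hx).1)
    omega
  rintro u t' ⟨a1, a2, a3, a4⟩
  have key : N.Circ d ∧ (∀ e ∈ N.E, Dom B (N.arc e) (N.X e + d e)) ∧
      (if r.2.2 then pot P B (N.add d) + (k.ψ : ℝ) ^ 2 / (10 ^ 6 * k.th ^ 2) ≤ pot P B N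
        else N.add d = N ∧ Quiet P N) := by
    cases hb : r.2.2 with
    | true =>
      rw [hb, if_pos rfl] at i4
      simpa using L.drop hN hp i4
    | false =>
      rw [hb, if_neg (by simp)] at i4
      have : d = fun _ => 0 := funext i4.2
      subst this
      refine ⟨fun z => by simp, fun e he => by simpa using (h.ok e he).dx, ?_⟩
      rw [if_neg (by simp)]
      exact ⟨N.add_zero, L.quiet hN i4.1⟩
  have j : J It P B ⟨r.1, s.arc, u.1, s.rf, s.ll, s.log⟩ u.2 (N.add d) := by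
    refine ⟨G, f', i1, h.E, h.EU, h.U, fun e he => ?_, h.out⟩
    have o := h.ok e he
    have i6 := i3 e (h.E ▸ he)
    refine ⟨o.arc, o.bd, key.2.1 e he, o.dr, o.ed, o.ll, ?_, fun hn => ?_⟩
    · change N.X e + d e = u.1.get e + f' e
      rw [a1, o.val]; omega
    · change (u.1.get e - s.rf.get e).natAbs * s.ll.get e ≤ _
      rw [a2, not_or] at hn
      rw [a1, rsum_eq_zero hn.1, add_zero]
      exact o.chk List.not_mem_nil
  have q : θ * (1 + t + t') + Q Ψ k B ⟨r.1, s.arc, u.1, s.rf, s.ll, s.log⟩ + θ * u.2.length ≤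
      Q Ψ k B s + θ * (k.AS + 2) := by
    have d1 := dev_rsum B.m s.kn.get s.rf.get s.ll.get r.2.1
    have d3 : (r.2.1.map fun x => x.2.natAbs * s.ll.get x.1).sum ≤ rw G.ed r.2.1 :=
      sum_le_rw fun x hx => by
        have o := h.ok x.1 (h.E ▸ (i2 x hx).1)
        rw [o.ll, o.ed]; exact le_rfl
    have e1 : u.1.get = fun e => s.kn.get e + rsum r.2.1 e := funext a1
    have d4 := Nat.mul_le_mul_left k.wt (show dev B.m u.1.get s.rf.get s.ll.get ≤
        dev B.m s.kn.get s.rf.get s.ll.get + rw G.ed r.2.1 by rw [e1]; omega)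
    have d5 := cc_pay hT r.2.1.length
    simp only [Q, a3, a4, mul_add, List.length_nil, add_zero] at d4 ⊢
    omega
  simp only [mul_add] at q
  refine (sp_proc hS hN hT j (by omega)).mono ?_
  rintro s' t'' ⟨b1, new, b2, b3⟩
  refine ⟨d, key.1, b1, key.2.2, new, b2, ?_⟩
  simp only [mul_add, add_zero] at b3 ⊢
  omega

theorem AP_pay (hN : Num P B k.th k.ψ k.er κ) (hT : Tim g θ k P B c) :
    (k.AS : ℝ) + 5 ≤ c.AP * ((k.ψ : ℝ) ^ 2 / (10 ^ 6 * k.th ^ 2)) ∧ (1 : ℝ) ≤ c.AP := by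
  have h1 : (1 : ℝ) ≤ k.ψ := by exact_mod_cast hN.ψ1
  have h2 : (k.ψ : ℝ) ≤ k.th := by exact_mod_cast hN.ψth
  have h3 : ((k.AS : ℝ) + 5) * (10 ^ 6 * k.th ^ 2) ≤ c.AP * k.ψ ^ 2 := by exact_mod_cast hT.AP
  have h4 : (0 : ℝ) < 10 ^ 6 * k.th ^ 2 := by have : (0 : ℝ) < k.th := by linarith
                                              positivity
  refine ⟨by rw [← mul_div_assoc, le_div_iff₀ h4]; exact h3, ?_⟩
  have h5 : 1 ≤ c.AP := by
    rw [Nat.one_le_iff_ne_zero]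
    intro h0
    rw [h0] at h3
    have : (0 : ℝ) ≤ k.AS := Nat.cast_nonneg _
    have : 0 < ((k.AS : ℝ) + 5) * (10 ^ 6 * k.th ^ 2) := by positivity
    simp at h3
    nlinarith
  exact_mod_cast h5

theorem J.pot_nonneg (hN : Num P B k.th k.ψ k.er κ) {s : St T} {C : List ℕ} {N : Net}
    (h : J It P B s C N) : 0 ≤ pot P B N := by
  obtain ⟨G, f, h⟩ := h
  exact Ip.pot_nonneg hN fun e he => ⟨(h.ok e he).bd, (h.ok e he).dx⟩

theorem sp_qui (hS : TowerSpec g θ κ run k Sh It Ψ) (hN : Num P B k.th k.ψ k.er κ)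
    (hT : Tim g θ k P B c) {s : St T} {N : Net} (h : J It P B s [] N)
    (hF : Ph θ Ψ k B s + c.AP * pot P B N ≤ B.F) :
    Sp g (qui run P s) fun s' τ => ∃ d, N.Circ d ∧ J It P B s' [] (N.add d) ∧ Quiet P (N.add d) ∧
      pot P B (N.add d) ≤ pot P B N ∧ ∃ new, Upd c (Ph θ Ψ k B) s s' N.E new τ
        (c.AQ + c.AP * (pot P B N - pot P B (N.add d))) := by
  obtain ⟨p1, p2⟩ := AP_pay hN hT
  have p0 := h.pot_nonneg hN
  have p3 := Ph_nonneg (θ := θ) (Ψ := Ψ) (k := k) (B := B) s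
  have p4 : pot P B N ≤ B.F := by nlinarith
  simp only [qui, sp_bind, sp_pure]
  refine (sp_whileT (fun u t => ∃ d, N.Circ d ∧ J It P B u.1 [] (N.add d) ∧
      (u.2 = false → Quiet P (N.add d)) ∧ pot P B (N.add d) ≤ pot P B N ∧ ∃ new,
        Upd c (Ph θ Ψ k B) s u.1 N.E new t ((if u.2 then 0 else (k.AS : ℝ) + 4) +
          c.AP * (pot P B N - pot P B (N.add d)))) B.F ?_ ?_ (t := 0)
      ⟨fun _ => 0, fun z => by simp, by rwa [N.add_zero], by simp, by rw [N.add_zero], [], rfl,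
        by simp, fun _ _ => rfl, by simp [N.add_zero]⟩ (by have := hT.fu; omega)).mono ?_
  · rintro u t ⟨d, -, h2, -, -, new, -, -, -, h3⟩ hb
    rw [if_pos hb] at h3
    have := h2.pot_nonneg hN
    have := Ph_nonneg (θ := θ) (Ψ := Ψ) (k := k) (B := B) u.1
    have : (0 : ℝ) ≤ c.cl * new.length := by positivity
    have : (t : ℝ) ≤ B.F := by nlinarith
    exact_mod_cast this
  · rintro ⟨s1, b⟩ t ⟨d, h1, h2, -, h4, new, u1, u2, u3, u4⟩ hb
    dsimp only at h2 u1 u3 u4 hb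
    rw [if_pos hb] at u4
    have n1 := h2.pot_nonneg hN
    have n2 : (0 : ℝ) ≤ c.cl * new.length := by positivity
    have n3 : (0 : ℝ) ≤ t := Nat.cast_nonneg _
    have hQ := Q_le (Ψ := Ψ) hT (s := s1) (F := B.F) (by nlinarith)
    refine (sp_step1 hS hN hT h2 hQ (h4.trans p4)).mono ?_
    rintro ⟨s2, b2⟩ t' ⟨d', a1, a2, a3, new', a4, a5⟩
    dsimp only at a2 a3 a4 a5 ⊢
    obtain ⟨v1, v2, v3, v4⟩ := a4.upd hT a5 le_rfl
    rw [Net.add_add] at a2 a3
    have w : pot P B (N.add fun e => d e + d' e) ≤ pot P B (N.add d) ∧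
        (b2 = false → Quiet P (N.add fun e => d e + d' e)) ∧
        (k.AS : ℝ) + 4 ≤ (if b2 then 0 else (k.AS : ℝ) + 4) +
          c.AP * (pot P B (N.add d) - pot P B (N.add fun e => d e + d' e)) := by
      cases b2 with
      | true =>
        rw [if_pos rfl] at a3 ⊢
        have : (0 : ℝ) ≤ (k.ψ : ℝ) ^ 2 / (10 ^ 6 * k.th ^ 2) := by positivity
        refine ⟨by linarith, by simp, ?_⟩
        nlinarith
      | false =>
        rw [if_neg (by simp)] at a3 ⊢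
        rw [a3.1]
        exact ⟨le_rfl, fun _ => a3.2, by simp⟩
    refine ⟨fun e => d e + d' e, h1.add a1, a2, w.2.1, w.1.trans h4, new' ++ new,
      by rw [v1, u1, List.append_assoc], fun e he => ?_, fun e he => ?_, ?_⟩
    · exact (List.mem_append.1 he).elim (v2 e) (u2 e)
    · rw [List.mem_append, not_or] at he
      exact (v3 e he.1).trans (u3 e he.2)
    · have := w.2.2
      simp only [List.length_append]
      push_cast at v4 ⊢
      nlinarith
  · rintro ⟨s1, b⟩ _ ⟨hb, t, rfl, d, h1, h2, h3, h4, new, u1, u2, u3, u4⟩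
    dsimp only at hb h2 h3 u1 u3 u4 ⊢
    rw [hb, if_neg (by simp)] at u4
    refine ⟨d, h1, h2, h3 hb, h4, new, u1, u2, u3, ?_⟩
    have : (k.AS : ℝ) + 6 ≤ c.AQ := by exact_mod_cast hT.AQ
    push_cast at u4 ⊢
    linarith

/-- **the primal centre meets its specification** -/
theorem ipSpec (hS : TowerSpec g θ κ run k Sh It Ψ) (hN : Num P B k.th k.ψ k.er κ)
    (hT : Tim g θ k P B c) :
    IpSpec g run P B c Sh (fun s N => J It P B s [] N) (Ph θ Ψ k B) where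
  nonneg := fun _ => Ph_nonneg _
  sh := fun ⟨_, _, h⟩ => hS.sh h.tw
  view := by
    rintro s N ⟨G, f, h⟩ e he
    have o := h.ok e he
    refine ⟨o.arc, o.bd, o.dx, o.dr, (near_of_int hN o.bd o.dr ((h.link hS).2 e he).2.2.2.2).trans ?_⟩
    have h1 : (1 : ℝ) ≤ k.ψ := by exact_mod_cast hN.ψ1
    have h2 : (k.ψ : ℝ) ≤ k.th := by exact_mod_cast hN.ψth
    rw [div_le_div_iff₀ (by linarith) (by norm_num)]
    linarith
  setLog := by
    rintro s N l ⟨G, f, h⟩
    exact ⟨⟨G, f, h.tw, h.E, h.EU, h.U, fun e he =>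
      let o := h.ok e he; ⟨o.arc, o.bd, o.dx, o.dr, o.ed, o.ll, o.val, o.chk⟩, h.out⟩, rfl⟩
  init := by
    intro t ht
    simp only [init, sp_bind, sp_call, sp_pure]
    refine (hS.reset (0, none) ht).mono ?_
    rintro r τ ⟨i1, -, i3⟩
    refine ⟨⟨Gr.emp, _, i1, rfl, subset_rfl, empty_subset _, fun e he => absurd he (notMem_empty _),
      fun _ _ => rfl⟩, trivial, ?_⟩
    have h0 : (0 : ℝ) < θ := by exact_mod_cast hT.θ1
    have h1 : (θ : ℝ) * τ + Ψ r.1 ≤ θ * k.AR := by exact_mod_cast i3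
    have h2 : (k.AR : ℝ) + 1 ≤ c.AR := by exact_mod_cast hT.AR
    have h3 : (Ψ r.1 : ℝ) / θ ≤ k.AR - τ := by rw [div_le_iff₀ h0]; linarith
    simp only [Ph, Q, dev, Arr.get_cst, mul_zero, sum_const_zero, add_zero]
    push_cast
    linarith
  ins := fun e A x h hF he hA hx => (sp_ins hS hN hT h (Q_le hT hF) he hA hx).mono
    fun _ _ ⟨a1, new, a2, a3, a4⟩ => ⟨a1, new, a2, fun e' he' => (a3.2.1 e' he').2,
      a3.upd hT a4 (by have := hT.AU; omega)⟩
  del := fun e h hF he => (sp_del hS hN hT h (Q_le hT hF) he).mono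
    fun _ _ ⟨a1, a2, new, a3, a4⟩ => ⟨a1, a2, new, fun e' he' => (a3.2.1 e' he').2,
      a3.upd hT a4 (by have := hT.AU; omega)⟩
  get := by
    intro s N e h hF he
    have hAU := hT.AU
    have hF' : Q Ψ k B s + θ * c.AU ≤ θ * B.F := by
      have h1 : (c.AU : ℝ) ≤ B.F := by
        have := Ph_nonneg (θ := θ) (Ψ := Ψ) (k := k) (B := B) s
        linarith
      have h2 : c.AU ≤ B.F := by exact_mod_cast h1
      have h3 := Q_le (Ψ := Ψ) hT (s := s) (F := B.F - c.AU) (by push_cast [h2]; linarith)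
      have h4 : θ * (B.F - c.AU) + θ * c.AU = θ * B.F := by rw [← mul_add]; congr 1; omega
      omega
    have hm : θ * (k.AU + c.cl + 4) ≤ θ * c.AU := Nat.mul_le_mul_left _ hAU
    have o : s.arc.get e = N.arc e ∧ B.arc e (N.arc e) ∧ Dom B (N.arc e) (N.X e) := by
      obtain ⟨G, f, h⟩ := h
      exact ⟨(h.ok e he).arc, (h.ok e he).bd, (h.ok e he).dx⟩
    refine (sp_del hS hN hT h (by omega) he).bind ?_
    rintro ⟨s1, x⟩ t ⟨a1, a2, new, a3, a4⟩
    dsimp only at a1 a2 a3 a4 ⊢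
    simp only [mul_add] at a4 hm
    rw [a2, o.1]
    refine (sp_ins hS hN hT a1 (by omega) (notMem_erase _ _) o.2.1 o.2.2).bind ?_
    rintro s2 t' ⟨b1, new', b2, b3, b4⟩
    rw [Net.ins_del he] at b1 b3
    have a3' : Lg s s1 N new := ⟨a3.1, fun e' he' =>
      ⟨mem_of_mem_erase (a3.2.1 e' he').1, (a3.2.1 e' he').2⟩, a3.2.2⟩
    have l := a3'.trans b3
    refine sp_pure.2 ⟨b1, rfl, new' ++ new, by simp [b2], fun e' he' => (l.2.1 e' he').2, ?_⟩
    have := l.upd (Ψ := Ψ) hT (t := t + (t' + 0)) (a := 2 * c.AU) (A := 2 * c.AU) (by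
      simp only [List.length_append, mul_add, mul_left_comm θ 2] at b4 ⊢
      omega) le_rfl
    push_cast at this ⊢
    exact this
  qui := fun h hF => sp_qui hS hN hT h hF

end Crest.Agent.N325.Ip
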